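import Vale.Agent.P277.Stmts24
import Vale.Agent.P277.A.Dim

/-!
# P277, (E): outside the preimage of `E` the maps `Y ⇢ X j` are continuous
-/

open scoped Manifold ContDiff Topology
open Vale.Agent.P272.K Vale.Agent.P285.H281.FD Vale.Agent.P267.H175 Set Metric Filter

noncomputable section

namespace Vale.Agent.P277.H29.E

open Vale.Agent.P277 Vale.Agent.P277.T3

/-- the correspondence is continuous at `y`, with the value `x` -/
def CvAt {Y : Type} [TopologicalSpace Y] {X : CSp} (Cr : Y → X.pt → Prop) (y : Y) (x : X.pt) :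
    Prop :=
  ∀ U ∈ 𝓝 x, ∀ᶠ y' in 𝓝 y, ∀ x', Cr y' x' → x' ∈ U

section

variable {Y : Type} [TopologicalSpace Y] {X Z : ℕ → CSp} {D : Set Y} {v : Y → (X 0).pt}
  {f : ∀ j, (X j).pt → (Z j).pt} {f' : ∀ j, (X (j + 1)).pt → (Z j).pt} {E : ∀ j, Set (X j).pt}

theorem step (hsm : ∀ j, IsSmall (X j) (Z j) (f j) (Amin (f j)))
    (hsm' : ∀ j, IsSmall (X (j + 1)) (Z j) (f' j) (Amin (f j))) (hE : FlipsIn f f' E) {y : Y}
    {j : ℕ} {x : (X j).pt} (hx : x ∉ E j) (h : CvAt (Cor D v f f' j) y x) :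
    ∃ x' ∉ E (j + 1), f' j x' ∉ Amin (f j) ∧ CvAt (Cor D v f f' (j + 1)) y x' := by
  have hfx : f j x ∉ Amin (f j) := fun h1 => hx (hE.locus j x h1)
  have hs : f' j ((hsm' j).sec (f j x)) = f j x := (hsm' j).sec_eq _
  refine ⟨(hsm' j).sec (f j x), fun h1 => hx (hE.trans j x _ hs.symm h1), ?_, ?_⟩
  · rw [hs]; exact hfx
  · intro U hU
    have h1 : (hsm' j).sec ⁻¹' U ∈ 𝓝 (f j x) := ((hsm' j).holMap_sec hfx).1 hU
    have h2 : f j ⁻¹' ((hsm' j).sec ⁻¹' U ∩ (Amin (f j))ᶜ) ∈ 𝓝 x :=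
      (hsm j).cont.continuousAt (inter_mem h1 ((hsm j).isClosed.isOpen_compl.mem_nhds hfx))
    filter_upwards [h _ h2] with y' hy' x'' hx''
    obtain ⟨x₁, h3, h4, h5⟩ := hx''
    have h6 := (hy' x₁ h3).1
    have h7 : (hsm' j).sec (f j x₁) = x'' := by
      rw [h4]
      exact (hsm' j).sec_apply (by rw [← h4]; exact h5)
    rw [mem_preimage, h7] at h6
    exact h6

/-- outside the preimage of `E 0` the correspondences are continuous -/
theorem cont_off (hsm : ∀ j, IsSmall (X j) (Z j) (f j) (Amin (f j)))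
    (hsm' : ∀ j, IsSmall (X (j + 1)) (Z j) (f' j) (Amin (f j))) (hE : FlipsIn f f' E)
    (hv : Continuous v) {y : Y} (hy : v y ∉ E 0) (j : ℕ) :
    ∃ x ∉ E j, CvAt (Cor D v f f' j) y x := by
  induction j with
  | zero =>
    refine ⟨v y, hy, fun U hU => ?_⟩
    filter_upwards [hv.continuousAt hU] with y' hy' x' hx'
    have h1 : v y' = x' := hx'.2
    rw [← h1]
    exact hy'
  | succ j ih =>
    obtain ⟨x, hx, h⟩ := ih
    obtain ⟨x', hx', -, h'⟩ := step hsm hsm' hE hx h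
    exact ⟨x', hx', h'⟩

/-- outside the preimage of `E 0` the correspondences are continuous, with values outside the flipped
loci -/
theorem cont_off' (hsm : ∀ j, IsSmall (X j) (Z j) (f j) (Amin (f j)))
    (hsm' : ∀ j, IsSmall (X (j + 1)) (Z j) (f' j) (Amin (f j))) (hE : FlipsIn f f' E)
    (hv : Continuous v) {y : Y} (hy : v y ∉ E 0) (j : ℕ) :
    ∃ x ∉ E (j + 1), f' j x ∉ Amin (f j) ∧ CvAt (Cor D v f f' (j + 1)) y x := by
  obtain ⟨x, hx, h⟩ := cont_off hsm hsm' hE hv hy j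
  exact step hsm hsm' hE hx h

end

/-- the limit of a lifted wedge -/
theorem eq_of_cv {Y T : Type} [TopologicalSpace Y] [TopologicalSpace T] {X : CSp}
    {Cr : Y → X.pt → Prop} {φ : T → X.pt} {γ : T → Y} {w : T} {x' : X.pt}
    (hφ : ContinuousAt φ w) (hγ : ContinuousAt γ w) (hfr : ∃ᶠ w' in 𝓝 w, Cr (γ w') (φ w'))
    (hc : CvAt Cr (γ w) x') : φ w = x' := by
  by_contra hne
  obtain ⟨U, V, hU, hV, hwU, hxV, hd⟩ := t2_separation hne
  have h1 : ∀ᶠ w' in 𝓝 w, φ w' ∈ U := hφ (hU.mem_nhds hwU)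
  have h2 := hγ.eventually (hc V (hV.mem_nhds hxV))
  obtain ⟨w', h3, h4, h5⟩ := (hfr.and_eventually (h1.and h2)).exists
  exact disjoint_left.1 hd h4 (h5 _ h3)

/-- the points of the total transform -/
theorem eq_of_tot {Y : Type} [TopologicalSpace Y] {X : CSp}
    {Cr : Y → X.pt → Prop} {y : Y} {x x' : X.pt}
    (hc : CvAt Cr y x') (h : (y, x) ∈ closure {q : Y × X.pt | Cr q.1 q.2}) : x = x' := by
  by_contra hne
  obtain ⟨U, V, hU, hV, hwU, hxV, hd⟩ := t2_separation hne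
  have h2 := hc V (hV.mem_nhds hxV)
  rw [mem_closure_iff_nhds] at h
  obtain ⟨⟨y', x''⟩, ⟨h3, h4⟩, h5⟩ := h _ (prod_mem_nhds h2 (hU.mem_nhds hwU))
  exact disjoint_left.1 hd h4 (h3 _ h5)

/-- the preimage of `E 0` -/
def Eh {Y : Type} {X : CSp} (v : Y → X.pt) (E : Set X.pt) : Set Y := {y | v y ∈ E}

theorem isClosed_of_isAn' {X : CSp} {E : Set X.pt} (h : IsAn X univ E) : IsClosed E :=
  isClosed_of_isAn h

end Vale.Agent.P277.H29.E
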