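import Vale.Agent.P277.H335.HypB
import Vale.Agent.P277.H371.C.FinB
import Vale.Agent.P277.H29.E.Cont

/-!
# P277, (E): the preimage of `E` and the smooth hypersurfaces
-/

open scoped Manifold ContDiff Topology
open Vale.Agent.P272.K Vale.Agent.P285.H281.FD Vale.Agent.P267.H175 Set Metric Filter

noncomputable section

namespace Vale.Agent.P277.H29.E

open Vale.Agent.P277 Vale.Agent.P277.T2 Vale.Agent.P277.H335 Vale.Agent.P277.H615
open Vale.Agent.P277.H335.RR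

variable {Y : Type} [TopologicalSpace Y] [ChartedSpace (Cm 4) Y] [IsManifold 𝓘(ℂ, Cm 4) ω Y]

omit [IsManifold 𝓘(ℂ, Cm 4) ω Y] in
/-- local equations in adapted coordinates -/
theorem exists_eqns {E C : Set Y} {ξ : Cm 4 → Y} {w₀ : Cm 4} {r : ℝ}
    (h : IsPar E ξ w₀ r) (hC : T3.IsAnAt 4 C (ξ w₀)) : ∃ r₁ > 0, ball w₀ r₁ ⊆ ball w₀ r ∧
      ∃ (k : ℕ) (g : Fin k → Cm 4 → ℂ),
      (∀ i, ∀ w ∈ ball w₀ r₁, AnalyticAt ℂ (g i) w) ∧
        ∀ w ∈ ball w₀ r₁, ξ w ∈ C ↔ ∀ i, g i w = 0 := by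
  obtain ⟨k, g, hg, hgC⟩ := hC
  have hc := h.cont w₀ (mem_ball_self h.pos)
  have he : At (chartAt (Cm 4) (ξ w₀) : Chart 4 Y) (ξ w₀) :=
    ⟨chart_mem_atlas _ _, mem_chart_source _ _⟩
  have han : ∀ i, AnalyticAt ℂ (fun w => g i (ξ w)) w₀ := by
    intro i
    have h1 := hg i _ he
    have h2 := (h.an w₀ (mem_ball_self h.pos) _ he).1
    have h3 := AnalyticAt.fun_comp (g := fun z => g i ((chartAt (Cm 4) (ξ w₀)).symm z))
      (f := fun w => chartAt (Cm 4) (ξ w₀) (ξ w)) h1 h2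
    refine h3.congr ?_
    filter_upwards [hc.eventually_mem ((chartAt (Cm 4) (ξ w₀)).open_source.mem_nhds he.2)]
      with w hw
    show g i ((chartAt (Cm 4) (ξ w₀)).symm (chartAt (Cm 4) (ξ w₀) (ξ w))) = g i (ξ w)
    rw [(chartAt (Cm 4) (ξ w₀)).left_inv hw]
  have hev : ∀ᶠ w in 𝓝 w₀, w ∈ ball w₀ r ∧ (∀ i, AnalyticAt ℂ (fun w => g i (ξ w)) w) ∧
      (ξ w ∈ C ↔ ∀ i, g i (ξ w) = 0) :=
    (isOpen_ball.eventually_mem (mem_ball_self h.pos)).and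
      ((eventually_all.2 fun i => (han i).eventually_analyticAt).and (hc.eventually hgC))
  obtain ⟨r₁, hr₁, hball⟩ := Metric.eventually_nhds_iff_ball.1 hev
  exact ⟨r₁, hr₁, fun w hw => (hball w hw).1, k, fun i w => g i (ξ w),
    fun i w hw => (hball w hw).2.1 i, fun w hw => (hball w hw).2.2⟩

omit [IsManifold 𝓘(ℂ, Cm 4) ω Y] in
/-- A connected smooth hypersurface `E` which is not contained in the closed analytic set `C` is
nowhere locally contained in `C`. -/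
theorem not_locally_an {E C : Set Y} (hE : IsHyp E) (hEc : IsPreconnected E)
    (hCcl : IsClosed C) (hC : ∀ y, T3.IsAnAt 4 C y) (hne : ¬ E ⊆ C) {y : Y} (hy : y ∈ E) :
    ¬ ∀ᶠ y' in 𝓝 y, y' ∈ E → y' ∈ C := by
  intro hy0
  have hconn : PreconnectedSpace E := isPreconnected_iff_preconnectedSpace.1 hEc
  set U : Set E := {y | ∀ᶠ y' in 𝓝 (y : Y), y' ∈ E → y' ∈ C} with hU
  have hUo : IsOpen U := by
    have h1 : IsOpen {y : Y | ∀ᶠ y' in 𝓝 y, y' ∈ E → y' ∈ C} := by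
      rw [isOpen_iff_mem_nhds]
      intro z hz
      exact eventually_eventually_nhds.2 hz
    exact h1.preimage continuous_subtype_val
  have hUcl : IsClosed U := by
    rw [← closure_subset_iff_isClosed]
    rintro ⟨z, hzE⟩ hz
    have key : ∀ N ∈ 𝓝 z, ∃ z' ∈ N, z' ∈ E ∧ ∀ᶠ y' in 𝓝 z', y' ∈ E → y' ∈ C := by
      intro N hN
      obtain ⟨⟨z', hz'E⟩, h1, h2⟩ := mem_closure_iff_nhds.1 hz (Subtype.val ⁻¹' N)
        (continuous_subtype_val.continuousAt hN)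
      exact ⟨z', h1, hz'E, h2⟩
    obtain ⟨ξ, w₀, r, hpar, rfl⟩ := hE z hzE
    obtain ⟨r₁, hr₁, hs, k, g, hg, hgC⟩ := exists_eqns hpar (hC _)
    have hN : ξ '' ball w₀ r₁ ∈ 𝓝 (ξ w₀) :=
      (hpar.openMap _ hs isOpen_ball).mem_nhds ⟨w₀, mem_ball_self hr₁, rfl⟩
    have hz0 : ∀ i, ∀ w ∈ ball w₀ r₁, w 0 = 0 → g i w = 0 := by
      intro i w₁ hw₁ hw₁0
      by_contra hgw
      obtain ⟨_, ⟨w', hw', rfl⟩, h2, h3⟩ := key _ hN
      have hw'0 : w' 0 = 0 := (hpar.mem w' (hs hw')).1 h2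
      obtain ⟨w, ⟨k1, k2⟩, k3, k4⟩ := ((freq_ne hpar.zero (hg i) hw₁ hw₁0 hw' hw'0
        hgw).and_eventually
        (((hpar.cont w' (hs hw')).eventually h3).and (isOpen_ball.mem_nhds hw'))).exists
      exact k2 ((hgC w k4).1 (k3 ((hpar.mem w (hs k4)).2 k1)) i)
    show ∀ᶠ y' in 𝓝 (ξ w₀), y' ∈ E → y' ∈ C
    filter_upwards [hN] with y' hy' hy'E
    obtain ⟨w, hw, rfl⟩ := hy'
    exact (hgC w hw).2 fun i => hz0 i w hw ((hpar.mem w (hs hw)).1 hy'E)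
  have huniv : U = univ := IsClopen.eq_univ ⟨hUcl, hUo⟩ ⟨⟨y, hy⟩, hy0⟩
  refine hne fun z hz => ?_
  have h1 : (⟨z, hz⟩ : E) ∈ U := huniv ▸ mem_univ _
  exact Eventually.self_of_nhds h1 hz

omit [IsManifold 𝓘(ℂ, Cm 4) ω Y] in
theorem sub_closure_an {E C : Set Y} (hE : IsHyp E) (hEc : IsPreconnected E)
    (hCcl : IsClosed C) (hC : ∀ y, T3.IsAnAt 4 C y) (hne : ¬ E ⊆ C) : E ⊆ closure (E \ C) := by
  intro y hy
  rw [mem_closure_iff_nhds]
  intro N hN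
  have h1 := not_locally_an hE hEc hCcl hC hne hy
  rw [Filter.not_eventually] at h1
  obtain ⟨y', h2, h3⟩ := (h1.and_eventually hN).exists
  push Not at h2
  exact ⟨y', h3, h2⟩

/-- the preimage of an analytic set -/
theorem isAnAt_pre {X₀ W : CSp} {r : ℕ} {v : Y → W.pt} {p : W.pt → X₀.pt} {P : Bd W.pt}
    {G : Fin r → Set Y} [T2Space Y] [CompactSpace Y] (hres : T2.IsRes v p P G) {E : Set X₀.pt}
    (hE : IsAn X₀ univ E) (y : Y) : T3.IsAnAt 4 {y | p (v y) ∈ E} y := by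
  have h1 := isRes_top hres
  obtain ⟨k, h, hh, hhE⟩ := hE (p (v y)) (mem_univ _)
  exact ⟨k, fun i y => h i (p (v y)), fun i e he => h1.holo y e he _ (hh i),
    h1.cont.continuousAt.eventually hhE⟩

end Vale.Agent.P277.H29.E
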