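import Vale.Agent.P277.H29.E.RegE
import Vale.Agent.P277.H335.M.P7M
import Vale.Agent.P277.H335.M.SurfM
import Vale.Agent.P277.H371.G.T4K

/-!
# P277, (E): the assembly (T4EF), and termination for klt pairs (T4EK)
-/

set_option maxSynthPendingDepth 3

open scoped Manifold ContDiff Topology
open Vale.Agent.P272.K Vale.Agent.P285.H281.FD Vale.Agent.P267.H175 Set Filter Metric

noncomputable section

namespace Vale.Agent.P277.H29.E

open Vale.Agent.P277 Vale.Agent.P277.T3 H615 H371.C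

/-- the blow-up of a flipped surface is centred inside `Eh` -/
theorem badPt_mono {Y : Type} [TopologicalSpace Y] [ChartedSpace (Cm 4) Y] {X : CSp} {S : Set X.pt}
    {Cr : Y → X.pt → Prop} {Bad Bad' : Set Y} {x : X.pt}
    (hin : ∀ (φ : Cm 4 → X.pt) (γ : Cm 4 → Y) (w : Cm 4), ContinuousAt φ w → ContinuousAt γ w →
      φ w ∈ S → γ w ∈ Bad → (∃ᶠ w' in 𝓝 w, Cr (γ w') (φ w')) → γ w ∈ Bad')
    (hd : Dense {x | ∃ y, Cr y x}) (h : BadPt S Cr Bad x) : BadPt S Cr Bad' x := by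
  obtain ⟨ξ, r, W, w₀, γ, ch, hr, hinj, hop, hξ, hS, hW, hw₀, h0, hx, hγ⟩ := h
  refine ⟨ξ, r, W, w₀, γ, ch, hr, hinj, hop, hξ, hS, hW, hw₀, h0, hx, fun w hw => ?_⟩
  obtain ⟨h1, h2, h3, h4, h5, h6⟩ := hγ w hw
  refine ⟨h1, h2, h3, h4, h5, fun hw0 => ⟨?_, (h6 hw0).2⟩⟩
  refine hin (fun w => ξ (bl w)) γ w ?_ h3 ?_ (h6 hw0).1 ?_
  · exact ContinuousAt.comp (g := ξ) (hξ _ h1).1 (H19.continuous_bl).continuousAt
  · refine hS _ h1 ?_ ?_
    · show w 0 = 0
      exact hw0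
    · show w 0 * w 1 = 0
      rw [hw0, zero_mul]
  · rw [Filter.frequently_iff]
    intro U hU
    obtain ⟨U', hU'U, hU'o, hwU'⟩ := _root_.mem_nhds_iff.1 (inter_mem hU (hW.mem_nhds hw))
    set V : Set (Cm 4) := U' ∩ {w | w 0 ≠ 0} with hV
    have hVo : IsOpen V := hU'o.inter
      (isOpen_ne_fun (continuous_apply (0 : Fin 4)) continuous_const)
    have hVb : bl '' V ⊆ ball 0 r := by
      rintro _ ⟨w', hw', rfl⟩
      exact (hγ w' (hU'U hw'.1).2).1
    have hVn : V.Nonempty := by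
      obtain ⟨w', h7, h8⟩ := H19.exists_ne_zero (hU'o.mem_nhds hwU')
      exact ⟨w', h7, h8⟩
    have h7 : IsOpen (ξ '' (bl '' V)) := hop _ hVb (H19.isOpen_image_bl hVo fun w hw => hw.2)
    obtain ⟨_, ⟨_, ⟨w', hw', rfl⟩, rfl⟩, y, hy⟩ := hd.inter_open_nonempty _ h7
      ((hVn.image bl).image ξ)
    refine ⟨w', (hU'U hw'.1).1, ?_⟩
    rw [(hγ w' (hU'U hw'.1).2).2.1 y hy]
    exact hy

/-- (T4EF) -/
theorem stT4EF : T3.StT4EF := by
  intro Y _ _ _ _ _ χ hχ k s M hM hnef m hm hm0 ρ hρ hsum H _ _ _ _ _ _ ι sg hbd hdisj W X Z r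
    v p P G hres hne f f' A L c hc n hn hflip E hE a ha h1 ⟨J₀, h2⟩
  obtain ⟨L', c', σ, t, hc', hcmp, hcorr, hcc, hfl⟩ :=
    H371.G.wrap_core (ι := ι) hM hm0 hbd hres hc hn hflip
  have h' : IsPG χ M m ρ ι sg v p P G f f' A L' c' σ n t :=
    ⟨hχ, hM, hnef, hm, hm0, hρ, hsum, hbd, hdisj, hres, hne, hc', hcmp, hcorr, hfl⟩
  have ha' : ∀ l, a l = ∑ e, ρ e * n e l / c' 0 e := by
    intro l
    simp only [hcc]
    exact ha l
  set Eh : Set Y := {y | p (v y) ∈ E 0} with hEh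
  have hreg : ∀ j, DimLe (X (j + 1)) 1
      {x | x ∈ f' j ⁻¹' Amin (f j) ∧ ¬ IsReg 4 (X (j + 1)) x} := by
    refine stRegE Y χ k s M m ρ H ι sg W X Z r v p P G f f' A L' c' σ n t h' E hE
      {l | a l < -1} {l | -1 ≤ a l ∧ a l < 0} {i | 1 < ρ (Fin.natAdd k i)}
      (fun l hl hlK => ?_) (fun i hi => not_lt.1 hi) (fun l hl => ?_) h1
    · rw [← ha']
      by_contra h3
      exact hlK ⟨not_lt.1 hl, not_le.1 h3⟩
    · rw [← ha']; exact hl.1
  have h := h'.amin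
  have hsm : ∀ j, IsSmall (X j) (Z j) (f j) (Amin (f j)) := fun j => (h.flip j).flip.small
  have hsm' : ∀ j, IsSmall (X (j + 1)) (Z j) (f' j) (Amin (f j)) := fun j =>
    (h.flip j).flip.small'
  have hvc : Continuous fun y => p (v y) := hres.cont.comp (continuousOn_univ.1 hres.emb.cont)
  have hEc : IsClosed Eh := (isClosed_of_isAn hE.an).preimage hvc
  have hEan : ∀ y, T3.IsAnAt 4 Eh y := isAnAt_pre hres hE.an
  have hneY : Nonempty Y := by
    have h3 := (h.flip 0).flip.ninj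
    rw [Function.Injective] at h3
    push Not at h3
    obtain ⟨x, -⟩ := h3
    obtain ⟨w, -⟩ := hres.psurj x
    obtain ⟨y, -⟩ := hres.surj w
    exact ⟨y⟩
  -- the image of the correspondence is dense
  have hdense : ∀ j, Dense {x | ∃ y, Cor (⋃ l, G l) (fun y => p (v y)) f f' (j + 1) y x} := by
    intro j
    have hseq := isSeq_sq hsm hsm' hres.emb' (by
      refine (hres.dim).mono ?_
      intro x hx
      obtain ⟨w, rfl⟩ := hres.psurj x
      obtain ⟨y, rfl⟩ := hres.surj w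
      refine ⟨y, ?_, rfl⟩
      by_contra hy
      exact hx ⟨y, hy, rfl⟩)
    have h3 := dense_compl_of_dimLe (by norm_num) (h.flip j).flip.normal'.dense (hseq.dim (j + 1))
    rw [compl_compl] at h3
    refine h3.mono ?_
    rintro _ ⟨y, hy, rfl⟩
    refine ⟨y, (H884.G.cor_iff (D := ⋃ l, G l) (v₀ := fun y => p (v y))
      (O := fun j => (sq f hsm' (⋃ l, G l)ᶜ (fun y => p (v y)) j).1)
      (v := fun j => (sq f hsm' (⋃ l, G l)ᶜ (fun y => p (v y)) j).2) rfl rfl (fun j => ?_)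
      hseq.comp (fun j x x' h4 h5 => (hsm' j).inj _ _ h4 h5) (j + 1) y _).2 ⟨hy, rfl⟩⟩
    rw [hseq.step j]
    rfl
  refine H371.G.fin_core stContr h.lb h.bd h.res h.ne h.c1 h.cmp h.corr h.flip hreg
    (H335.MM.stP7M Y χ k s M m ρ H ι sg W X Z r v p P G f f' _ L' c' σ n t h
      {l | a l < 0 ∧ (a l ≤ -1 ∨ G l ⊆ Eh)} {l | (-1 < a l ∧ a l < 0) ∧ ¬ G l ⊆ Eh}
      {i | 1 ≤ ρ (Fin.natAdd k i)} (fun l hl hlK => ?_) (fun l hl => ?_) (fun i hi => not_le.1 hi)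
      Eh hEc (fun l hl => ?_) (fun l hl => ?_) J₀ (fun j _ => hreg j) fun j hj => ?_)
  · rw [← ha']
    by_contra h3
    have h4 := not_le.1 h3
    by_cases h5 : a l ≤ -1
    · exact hl ⟨h4, Or.inl h5⟩
    · by_cases h6 : G l ⊆ Eh
      · exact hl ⟨h4, Or.inr h6⟩
      · exact hlK ⟨⟨not_le.1 h5, h4⟩, h6⟩
  · rw [← ha']; exact hl.1.1
  · exact sub_closure_an (hres.hyp l) (hres.conn l) hEc hEan hl.2
  · exact H335.MM.stSurf (hres.hyp l) (hres.closed l) hEc hEan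
      (sub_closure_an (hres.hyp l) (hres.conn l) hEc hEan hl.2)
  · refine (h2 j hj).mono fun x hx => badPt_mono ?_ (hdense j) hx
    intro φ γ w hφ hγ hS hB hfr
    have h3 : γ w ∈ Eh := by
      by_contra hy
      obtain ⟨x', -, hx', hcv⟩ := cont_off' (D := ⋃ l, G l) hsm hsm' hE hvc hy j
      have h4 := eq_of_cv hφ hγ hfr hcv
      rw [h4] at hS
      exact hx' hS
    refine ⟨?_, h3⟩
    rcases hB with hB | hB
    · exact hB
    · obtain ⟨l, hl, h5⟩ := mem_iUnion₂.1 hB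
      exact (h5.2 h3).elim

/-- (T4EK) -/
theorem stT4EK : T3.StT4EK := by
  intro Y _ _ _ _ _ χ hχ k s M hM hnef m hm hm0 ρ hρ hsum H _ _ _ _ _ _ ι sg hbd hdisj hb W X Z r
    v p P G hres hne f f' A L c hc n hn hflip a ha hklt hd1 hd2 E hE hcen
  have hG : ∀ l, a l < 0 → ¬ G l ⊆ {y | p (v y) ∈ E 0} := by
    intro l hl h1
    obtain ⟨y, h2, h3⟩ := hcen l hl
    exact h3 (h1 h2)
  have hcross : ∀ K : Set (Fin r), (∀ l ∈ K, a l < 0) → cross ι G K = ∅ := by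
    intro K hK
    refine eq_empty_of_forall_notMem ?_
    rintro y ⟨l, hl, hy, ⟨l', hl', hne', hy'⟩ | ⟨i, hi⟩⟩
    · exact disjoint_left.1 (hd1 l' l hne' (hK l' hl') (hK l hl)) hy' hy
    · exact disjoint_left.1 (hd2 l i (hK l hl)) hy hi
  have hneX : ∀ j, Nonempty (X j).pt := by
    intro j
    have h3 := (hflip j).ninj
    rw [Function.Injective] at h3
    push Not at h3
    obtain ⟨x, -⟩ := h3
    exact ⟨x⟩
  refine stT4EF Y χ hχ k s M hM hnef m hm hm0 ρ hρ hsum H ι sg hbd hdisj W X Z r v p P G hres hne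
    f f' A L c hc n hn hflip E hE a ha (fun j => ?_) ⟨0, fun j _ => ?_⟩
  · have := hneX (j + 1)
    refine dimLe_empty.mono ?_
    rintro x ⟨-, -, hx | hx⟩
    · exfalso
      obtain ⟨y, ⟨hy, -⟩, -⟩ := hx
      rw [hcross _ fun l hl => hl.2, union_empty] at hy
      rcases hy with hy | hy
      · obtain ⟨l, hl, -⟩ := mem_iUnion₂.1 hy
        exact lt_asymm (hklt l) hl
      · obtain ⟨i, hi, -⟩ := mem_iUnion₂.1 hy
        exact lt_asymm (hb i) hi
    · exfalso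
      have h3 : (⋃ l ∈ {l | (-1 ≤ a l ∧ a l < 0) ∧ G l ⊆ {y | p (v y) ∈ E 0}}, G l) = ∅ := by
        refine eq_empty_of_forall_notMem fun y hy => ?_
        obtain ⟨l, hl, -⟩ := mem_iUnion₂.1 hy
        exact hG l hl.1.2 hl.2
      rw [h3] at hx
      simp [Val] at hx
  · have := hneX (j + 1)
    refine dimLe_empty.mono ?_
    rintro x ⟨ξ, r', W', w₀, γ, ch, -, -, -, -, -, -, hw₀, h0, -, hγ⟩
    exfalso
    obtain ⟨hy, -⟩ := ((hγ w₀ hw₀).2.2.2.2.2 h0).1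
    rw [hcross _ fun l hl => hl.1.2, union_empty] at hy
    rcases hy with hy | hy
    · obtain ⟨l, hl, -⟩ := mem_iUnion₂.1 hy
      rcases hl.2 with h3 | h3
      · exact absurd (hklt l) (not_lt.2 h3)
      · exact hG l hl.1 h3
    · obtain ⟨i, hi, -⟩ := mem_iUnion₂.1 hy
      exact absurd (hb i) (not_lt.2 hi)

end Vale.Agent.P277.H29.E
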