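import Vale.Agent.P277.H29.E.Eff
import Vale.Agent.P277.H29.E.FinE

/-!
# P277, (E): flips of effective divisors: termination for klt pairs (T4ES)
-/

set_option linter.unusedSectionVars false

open scoped Manifold ContDiff Topology
open Vale.Agent.P272.K Vale.Agent.P285.H281.FD Vale.Agent.P267.H175 Set Filter Metric

noncomputable section

namespace Vale.Agent.P277.H29.E

open Vale.Agent.P277 Vale.Agent.P277.T2 Vale.Agent.P277.T3 Vale.Agent.P277.H615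
open Vale.Agent.P277.H371.C Vale.Agent.P277.H29.CY

section

variable {X : CSp} {K q : ℕ} {L : Fin K → Bd X.pt} {N : Fin q → Bd X.pt}

/-- the line bundle of an integral combination of the `L e` and `N b` is trivial -/
def TrivM (X : CSp) (L : Fin K → Bd X.pt) (N : Fin q → Bd X.pt) (n : Fin K ⊕ Fin q → ℤ) : Prop :=
  IsTriv X ((Bd.lin L fun e => n (Sum.inl e)).mul (Bd.lin N fun b => n (Sum.inr b)))

theorem TrivM.zero : TrivM X L N 0 := by
  refine ⟨fun _ _ => 1, ⟨fun i x _ _ => hol_const 1 x, fun i j x _ _ _ => ?_⟩,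
    fun _ _ _ => one_ne_zero⟩
  show (1 : ℂ) = ((∏ e, (L e).g (i.1 e) (j.1 e) x ^ (0 : Fin K ⊕ Fin q → ℤ) (Sum.inl e)) *
    ∏ b, (N b).g (i.2 b) (j.2 b) x ^ (0 : Fin K ⊕ Fin q → ℤ) (Sum.inr b)) * 1
  simp

theorem TrivM.add (hL : ∀ e, IsLBx X (L e)) (hN : ∀ b, IsLBx X (N b))
    (n n' : Fin K ⊕ Fin q → ℤ) (h : TrivM X L N n) (h' : TrivM X L N n') :
    TrivM X L N (n + n') := by
  obtain ⟨s, hs, hs0⟩ := h
  obtain ⟨s', hs', hs0'⟩ := h'
  refine ⟨fun i x => s i x * s' i x, ⟨fun i x hx hi => ?_, fun i j x hx hi hj => ?_⟩,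
    fun i x hi => mul_ne_zero (hs0 i x hi) (hs0' i x hi)⟩
  · exact hol_mul (hs.holo i x hx hi) (hs'.holo i x hx hi)
  · have h1 := hs.change i j x hx hi hj
    have h2 := hs'.change i j x hx hi hj
    show s i x * s' i x = ((∏ e, (L e).g (i.1 e) (j.1 e) x ^ (n + n') (Sum.inl e)) *
      ∏ b, (N b).g (i.2 b) (j.2 b) x ^ (n + n') (Sum.inr b)) * (s j x * s' j x)
    rw [h1, h2]
    show ((∏ e, (L e).g (i.1 e) (j.1 e) x ^ n (Sum.inl e)) *
      ∏ b, (N b).g (i.2 b) (j.2 b) x ^ n (Sum.inr b)) * s j x *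
      (((∏ e, (L e).g (i.1 e) (j.1 e) x ^ n' (Sum.inl e)) *
      ∏ b, (N b).g (i.2 b) (j.2 b) x ^ n' (Sum.inr b)) * s' j x) = _
    have h3 : ∀ e, (L e).g (i.1 e) (j.1 e) x ^ (n + n') (Sum.inl e) =
        (L e).g (i.1 e) (j.1 e) x ^ n (Sum.inl e) * (L e).g (i.1 e) (j.1 e) x ^ n' (Sum.inl e) :=
      fun e => zpow_add₀ ((hL e).ne_zero _ _ x (hi.1 e) (hj.1 e)) _ _
    have h4 : ∀ b, (N b).g (i.2 b) (j.2 b) x ^ (n + n') (Sum.inr b) =
        (N b).g (i.2 b) (j.2 b) x ^ n (Sum.inr b) * (N b).g (i.2 b) (j.2 b) x ^ n' (Sum.inr b) :=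
      fun b => zpow_add₀ ((hN b).ne_zero _ _ x (hi.2 b) (hj.2 b)) _ _
    simp only [h3, h4, Finset.prod_mul_distrib]
    ring

theorem TrivM.smul (a : ℤ) (n : Fin K ⊕ Fin q → ℤ) (h : TrivM X L N n) :
    TrivM X L N (a • n) := by
  obtain ⟨s, hs, hs0⟩ := h
  refine ⟨fun i x => s i x ^ a, ⟨fun i x hx hi => ?_, fun i j x hx hi hj => ?_⟩,
    fun i x hi => zpow_ne_zero _ (hs0 i x hi)⟩
  · exact hol_zpow (hs.holo i x hx hi) (hs0 i x hi) a
  · have h1 := hs.change i j x hx hi hj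
    show s i x ^ a = ((∏ e, (L e).g (i.1 e) (j.1 e) x ^ (a • n) (Sum.inl e)) *
      ∏ b, (N b).g (i.2 b) (j.2 b) x ^ (a • n) (Sum.inr b)) * s j x ^ a
    rw [h1]
    show (((∏ e, (L e).g (i.1 e) (j.1 e) x ^ n (Sum.inl e)) *
      ∏ b, (N b).g (i.2 b) (j.2 b) x ^ n (Sum.inr b)) * s j x) ^ a = _
    rw [mul_zpow, mul_zpow, ← Finset.prod_zpow, ← Finset.prod_zpow]
    congr 2
    · refine Finset.prod_congr rfl fun e _ => ?_
      rw [← zpow_mul]
      congr 1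
      show n (Sum.inl e) * a = a * n (Sum.inl e)
      ring
    · refine Finset.prod_congr rfl fun e _ => ?_
      rw [← zpow_mul]
      congr 1
      show n (Sum.inr e) * a = a * n (Sum.inr e)
      ring

/-- a combination of the `L e` which is an effective combination of the `N b` has a section -/
theorem hasSec_of_triv (hL : ∀ e, IsLBx X (L e)) (hN : ∀ b, IsLBx X (N b))
    {τ : ∀ b, (N b).ι → X.pt → ℂ} (hτ : ∀ b, IsSecx X univ (N b) (τ b)) {E : Set X.pt}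
    (hE : ∀ y, y ∈ E ↔ ∃ b i, y ∈ (N b).U i ∧ τ b i y = 0) {n : Fin K ⊕ Fin q → ℤ}
    {μ : Fin q → ℕ} (hμ : ∀ b, n (Sum.inr b) = -μ b) (h : TrivM X L N n) :
    HasSec X L E fun e => n (Sum.inl e) := by
  obtain ⟨T, hT, hT0⟩ := h
  choose κ hκ using fun (x : X.pt) b => (hN b).cover x
  -- independence of the frames of the `N b`
  have hind : ∀ (i : ∀ e, (L e).ι) (β β' : ∀ b, (N b).ι) (x : X.pt), (∀ e, x ∈ (L e).U (i e)) →
      (∀ b, x ∈ (N b).U (β b)) → (∀ b, x ∈ (N b).U (β' b)) →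
      T (i, β) x * ∏ b, τ b (β b) x ^ μ b = T (i, β') x * ∏ b, τ b (β' b) x ^ μ b := by
    intro i β β' x hi hβ hβ'
    have h1 := hT.change (i, β) (i, β') x (mem_univ _) ⟨hi, hβ⟩ ⟨hi, hβ'⟩
    have h2 : ∀ b, τ b (β b) x = (N b).g (β b) (β' b) x * τ b (β' b) x := fun b =>
      (hτ b).change _ _ x (mem_univ _) (hβ b) (hβ' b)
    have h3 : T (i, β) x = ((∏ e, (L e).g (i e) (i e) x ^ n (Sum.inl e)) *
      ∏ b, (N b).g (β b) (β' b) x ^ n (Sum.inr b)) * T (i, β') x := h1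
    have h4 : ∏ e, (L e).g (i e) (i e) x ^ n (Sum.inl e) = 1 := by
      refine Finset.prod_eq_one fun e _ => ?_
      rw [IsLBx.one (hL e) (hi e), one_zpow]
    have h5 : ∏ b, τ b (β b) x ^ μ b =
        (∏ b, (N b).g (β b) (β' b) x ^ μ b) * ∏ b, τ b (β' b) x ^ μ b := by
      rw [← Finset.prod_mul_distrib]
      refine Finset.prod_congr rfl fun b _ => ?_
      rw [h2 b, mul_pow]
    have h6 : (∏ b, (N b).g (β b) (β' b) x ^ n (Sum.inr b)) *
        ∏ b, (N b).g (β b) (β' b) x ^ μ b = 1 := by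
      rw [← Finset.prod_mul_distrib]
      refine Finset.prod_eq_one fun b _ => ?_
      have h7 := (hN b).ne_zero _ _ x (hβ b) (hβ' b)
      rw [hμ b, zpow_neg, zpow_natCast]
      exact inv_mul_cancel₀ (pow_ne_zero _ h7)
    rw [h3, h4, h5, one_mul]
    calc _ = ((∏ b, (N b).g (β b) (β' b) x ^ n (Sum.inr b)) *
          ∏ b, (N b).g (β b) (β' b) x ^ μ b) * (T (i, β') x * ∏ b, τ b (β' b) x ^ μ b) := by ring
      _ = _ := by rw [h6, one_mul]
  refine ⟨fun i x => T (i, κ x) x * ∏ b, τ b (κ x b) x ^ μ b, ⟨fun i x _ hi => ?_,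
    fun i j x _ hi hj => ?_⟩, fun x hx i hi => ?_⟩
  · have h1 : X.Hol (fun y => T (i, κ x) y * ∏ b, τ b (κ x b) y ^ μ b) x := by
      refine hol_mul (hT.holo (i, κ x) x (mem_univ _) ⟨hi, hκ x⟩) ?_
      refine hol_prod Finset.univ fun b _ => hol_pow ((hτ b).holo _ x (mem_univ _) (hκ x b)) _
    refine hol_congr h1 ?_
    filter_upwards [((IsLBx.lin hL fun e => n (Sum.inl e)).isOpen i).mem_nhds hi,
      (isOpen_iInter_of_finite fun b => (hN b).isOpen (κ x b)).mem_nhds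
        (mem_iInter.2 fun b => hκ x b)] with y hy hy'
    exact hind i (κ y) (κ x) y hy (hκ y) fun b => mem_iInter.1 hy' b
  · have h1 := hT.change (i, κ x) (j, κ x) x (mem_univ _) ⟨hi, hκ x⟩ ⟨hj, hκ x⟩
    have h3 : T (i, κ x) x = ((∏ e, (L e).g (i e) (j e) x ^ n (Sum.inl e)) *
      ∏ b, (N b).g (κ x b) (κ x b) x ^ n (Sum.inr b)) * T (j, κ x) x := h1
    have h4 : ∏ b, (N b).g (κ x b) (κ x b) x ^ n (Sum.inr b) = 1 := by
      refine Finset.prod_eq_one fun b _ => ?_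
      rw [IsLBx.one (hN b) (hκ x b), one_zpow]
    rw [h4, mul_one] at h3
    show T (i, κ x) x * ∏ b, τ b (κ x b) x ^ μ b =
      (∏ e, (L e).g (i e) (j e) x ^ n (Sum.inl e)) *
        (T (j, κ x) x * ∏ b, τ b (κ x b) x ^ μ b)
    rw [h3]
    ring
  · refine mul_ne_zero (hT0 (i, κ x) x ⟨hi, hκ x⟩) (Finset.prod_ne_zero_iff.2 fun b _ =>
      pow_ne_zero _ fun h0 => hx ((hE x).2 ⟨b, κ x b, hκ x b, h0⟩))

/-- the support is analytic -/
theorem isAn_supp (hN : ∀ b, IsLBx X (N b))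
    {τ : ∀ b, (N b).ι → X.pt → ℂ} (hτ : ∀ b, IsSecx X univ (N b) (τ b)) {E : Set X.pt}
    (hE : ∀ y, y ∈ E ↔ ∃ b i, y ∈ (N b).U i ∧ τ b i y = 0) : IsAn X univ E := by
  intro x _
  choose κ hκ using fun b => (hN b).cover x
  refine ⟨1, fun _ y => ∏ b, τ b (κ b) y, fun _ =>
    hol_prod Finset.univ fun b _ => (hτ b).holo _ x (mem_univ _) (hκ b), ?_⟩
  filter_upwards [(isOpen_iInter_of_finite fun b => (hN b).isOpen (κ b)).mem_nhds
    (mem_iInter.2 fun b => hκ b)] with y hy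
  rw [hE y]
  constructor
  · rintro ⟨b, i, hi, h0⟩ -
    refine Finset.prod_eq_zero (Finset.mem_univ b) ?_
    rw [(hτ b).change (κ b) i y (mem_univ _) (mem_iInter.1 hy b) hi, h0, mul_zero]
  · intro h
    obtain ⟨b, -, hb⟩ := Finset.prod_eq_zero_iff.1 (h 0)
    exact ⟨b, κ b, mem_iInter.1 hy b, hb⟩

theorem IsREff.an {c : Fin K → ℕ} {ρ : Fin K → ℝ} {E : Set X.pt} (h : IsREff X L c ρ E) :
    IsAn X univ E := by
  obtain ⟨q, N, τ, x, hN, hτ, -, hE, -⟩ := h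
  exact isAn_supp hN hτ hE

theorem IsREff.limEff (hL : ∀ e, IsLBx X (L e)) {c : Fin K → ℕ} {ρ : Fin K → ℝ} {E : Set X.pt}
    (h : IsREff X L c ρ E) : LimEff X L c E ρ := by
  obtain ⟨q, N, τ, x, hN, hτ, hx, hE, a, n, ν, u, htr, hρ, hxu⟩ := h
  intro δ hδ
  obtain ⟨δ', hδ', hδδ, hδx⟩ : ∃ δ' > 0, δ' ≤ δ ∧ ∀ b, δ' ≤ x b := by
    rcases isEmpty_or_nonempty (Fin q) with he | he
    · exact ⟨δ, hδ, le_rfl, fun b => (he.false b).elim⟩
    · obtain ⟨b₀, hb₀⟩ := Finite.exists_min x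
      exact ⟨min δ (x b₀), lt_min hδ (hx b₀), min_le_left _ _, fun b =>
        (min_le_right _ _).trans (hb₀ b)⟩
  have hmem : (Sum.elim ρ fun b => -x b) ∈ Submodule.span ℝ {y : Fin K ⊕ Fin q → ℝ |
      ∃ n : Fin K ⊕ Fin q → ℤ, TrivM X L N n ∧ ∀ e, y e = n e * (Sum.elim c fun _ => 1) e} := by
    have e1 : (Sum.elim ρ fun b => -x b) = ∑ l, u l • (Sum.elim (fun e => (n l e * c e : ℝ))
        fun b => (ν l b : ℝ)) := by
      funext e
      rw [Finset.sum_apply]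
      rcases e with e | b
      · simp only [Sum.elim_inl, Pi.smul_apply, smul_eq_mul]
        exact hρ e
      · simp only [Sum.elim_inr, Pi.smul_apply, smul_eq_mul]
        exact hxu b
    rw [e1]
    refine Submodule.sum_mem _ fun l _ => Submodule.smul_mem _ _ (Submodule.subset_span
      ⟨Sum.elim (n l) (ν l), htr l, fun e => ?_⟩)
    rcases e with e | b
    · simp
    · simp
  obtain ⟨m, w, hw, hm, hd⟩ := approx_gen (P := TrivM X L N) TrivM.zero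
    (TrivM.add hL hN) TrivM.smul hmem δ' hδ'
  have hneg : ∀ b, m (Sum.inr b) ≤ 0 := by
    intro b
    have h1 := hd (Sum.inr b)
    have hw0 : (0 : ℝ) < w := by exact_mod_cast hw
    simp only [Sum.elim_inr, Nat.cast_one, mul_one, sub_neg_eq_add] at h1
    have h2 := (abs_lt.1 h1).2
    have h3 := hδx b
    have h4 : (m (Sum.inr b) : ℝ) / w < 0 := by linarith
    have h5 : (m (Sum.inr b) : ℝ) < 0 := by
      by_contra h6
      exact absurd h4 (not_lt.2 (div_nonneg (not_lt.1 h6) hw0.le))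
    exact_mod_cast h5.le
  refine ⟨fun e => m (Sum.inl e), w, hw, hasSec_of_triv hL hN hτ hE (μ := fun b =>
    (-m (Sum.inr b)).toNat) (fun b => ?_) hm, fun e => (hd (Sum.inl e)).trans_le hδδ⟩
  have := hneg b
  omega

end

/-- the flips of an effective divisor take place inside the support -/
theorem flipsIn_of_eff {K : ℕ} {X Z : ℕ → CSp} {f : ∀ j, (X j).pt → (Z j).pt}
    {f' : ∀ j, (X (j + 1)).pt → (Z j).pt} {A : ∀ j, Set (Z j).pt}
    {L : ∀ j, Fin K → Bd (X j).pt} {c : ℕ → Fin K → ℕ} {ρ : Fin K → ℝ} (hc : ∀ j e, 1 ≤ c j e)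
    (hflip : ∀ j, IsFlipR (X j) (Z j) (X (j + 1)) (f j) (f' j) (A j) (L j) (L (j + 1)) (c j)
      (c (j + 1)) ρ) {E₀ : Set (X 0).pt} (hE : IsREff (X 0) (L 0) (c 0) ρ E₀) :
    ∃ E : ∀ j, Set (X j).pt, E 0 = E₀ ∧ FlipsIn f f' E := by
  let E : ∀ j, Set (X j).pt := fun j => Nat.rec (motive := fun j => Set (X j).pt) E₀
    (fun j S => {x' | ∃ x ∈ S, f j x = f' j x'}) j
  have hfl := fun j => H371.C.IsFlipR.amin (hflip j) (hc j)
  have hlim : ∀ j, LimEff (X j) (L j) (c j) (E j) ρ := by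
    intro j
    induction j with
    | zero => exact IsREff.limEff (hflip 0).lb hE
    | succ j ih => exact LimEff.trans (hfl j) (fun x hx => ih.locus (hfl j) hx) ih
  refine ⟨E, rfl, IsREff.an hE, fun j x hx => (hlim j).locus (hfl j) hx, fun j x x' hxx' hx' => ?_⟩
  obtain ⟨x₁, hx₁, h1⟩ := hx'
  by_cases h2 : f j x ∈ Amin (f j)
  · exact (hlim j).locus (hfl j) h2
  · have h3 : x₁ = x := (hfl j).small.inj x x₁ h2 (h1.trans hxx'.symm)
    rw [← h3]
    exact hx₁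

/-- (T4ES) -/
theorem stT4ES : T3.StT4ES := by
  intro Y _ _ _ _ _ χ hχ k s M hM hnef m hm hm0 ρ hρ hsum H _ _ _ _ _ _ ι sg hbd hdisj hb W X Z r
    v p P G hres hne f f' A L c hc n hn hflip a ha hklt hd1 hd2 E₀ hE hcen
  obtain ⟨E, rfl, hE'⟩ := flipsIn_of_eff hc hflip hE
  exact stT4EK Y χ hχ k s M hM hnef m hm hm0 ρ hρ hsum H ι sg hbd hdisj hb W X Z r v p P G hres
    hne f f' A L c hc n hn hflip a ha hklt hd1 hd2 E hE' hcen

end Vale.Agent.P277.H29.E
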