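import Vale.Agent.P277.Stmts29
import Vale.Agent.P277.H29.E.Cont
import Vale.Agent.P277.H29.E.Eff2

/-!
# P277, (T7H): outside the preimage of the hit points the maps `Y ⇢ X j` are continuous
-/

open scoped Manifold ContDiff Topology
open Vale.Agent.P272.K Vale.Agent.P285.H281.FD Vale.Agent.P267.H175 Set Metric Filter

noncomputable section

namespace Vale.Agent.P277.H29.E

open Vale.Agent.P277 Vale.Agent.P277.T3

section

variable {Y : Type} [TopologicalSpace Y] {X Z : ℕ → CSp} {D : Set Y} {v : Y → (X 0).pt}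
  {f : ∀ j, (X j).pt → (Z j).pt} {f' : ∀ j, (X (j + 1)).pt → (Z j).pt}

theorem stepH (hsm : ∀ j, IsSmall (X j) (Z j) (f j) (Amin (f j)))
    (hsm' : ∀ j, IsSmall (X (j + 1)) (Z j) (f' j) (Amin (f j))) {y : Y}
    {j : ℕ} {x : (X j).pt} (hfx : f j x ∉ Amin (f j)) (h : CvAt (Cor D v f f' j) y x) :
    ∃ x', f j x = f' j x' ∧ f' j x' ∉ Amin (f j) ∧ CvAt (Cor D v f f' (j + 1)) y x' := by
  have hs : f' j ((hsm' j).sec (f j x)) = f j x := (hsm' j).sec_eq _
  refine ⟨(hsm' j).sec (f j x), hs.symm, ?_, ?_⟩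
  · rw [hs]; exact hfx
  · intro U hU
    have h1 : (hsm' j).sec ⁻¹' U ∈ 𝓝 (f j x) := ((hsm' j).holMap_sec hfx).1 hU
    have h2 : f j ⁻¹' ((hsm' j).sec ⁻¹' U ∩ (Amin (f j))ᶜ) ∈ 𝓝 x :=
      (hsm j).cont.continuousAt (inter_mem h1 ((hsm j).isClosed.isOpen_compl.mem_nhds hfx))
    filter_upwards [h _ h2] with y' hy' x'' hx''
    obtain ⟨x₁, h3, h4, h5⟩ := hx''
    have h6 := (hy' x₁ h3).1
    have h7 : (hsm' j).sec (f j x₁) = x'' := by
      rw [h4]
      exact (hsm' j).sec_apply (by rw [← h4]; exact h5)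
    rw [mem_preimage, h7] at h6
    exact h6

/-- outside the preimage of the hit points the correspondences are continuous -/
theorem cont_offH (hsm : ∀ j, IsSmall (X j) (Z j) (f j) (Amin (f j)))
    (hsm' : ∀ j, IsSmall (X (j + 1)) (Z j) (f' j) (Amin (f j)))
    (hv : Continuous v) {y : Y} (hy : v y ∉ hit f f') (j : ℕ) :
    ∃ x, Cor ∅ (fun x : (X 0).pt => x) f f' j (v y) x ∧ CvAt (Cor D v f f' j) y x := by
  induction j with
  | zero =>
    refine ⟨v y, ⟨notMem_empty _, rfl⟩, fun U hU => ?_⟩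
    filter_upwards [hv.continuousAt hU] with y' hy' x' hx'
    have h1 : v y' = x' := hx'.2
    rw [← h1]
    exact hy'
  | succ j ih =>
    obtain ⟨x, hx, h⟩ := ih
    have hfx : f j x ∉ Amin (f j) := fun h1 => hy ⟨j, x, hx, h1⟩
    obtain ⟨x', h1, -, h'⟩ := stepH hsm hsm' hfx h
    exact ⟨x', ⟨x, hx, h1, hfx⟩, h'⟩

/-- outside the preimage of the hit points the correspondences are continuous, with values outside the
flipped loci -/
theorem cont_offH' (hsm : ∀ j, IsSmall (X j) (Z j) (f j) (Amin (f j)))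
    (hsm' : ∀ j, IsSmall (X (j + 1)) (Z j) (f' j) (Amin (f j)))
    (hv : Continuous v) {y : Y} (hy : v y ∉ hit f f') (j : ℕ) :
    ∃ x, f' j x ∉ Amin (f j) ∧ CvAt (Cor D v f f' (j + 1)) y x := by
  obtain ⟨x, hx, h⟩ := cont_offH hsm hsm' hv hy j
  have hfx : f j x ∉ Amin (f j) := fun h1 => hy ⟨j, x, hx, h1⟩
  obtain ⟨x', -, h2, h'⟩ := stepH hsm hsm' hfx h
  exact ⟨x', h2, h'⟩

end

/-- if the flips take place inside `E`, then the hit points are contained in `E 0` -/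
theorem FlipsIn.hit_sub {X Z : ℕ → CSp} {f : ∀ j, (X j).pt → (Z j).pt}
    {f' : ∀ j, (X (j + 1)).pt → (Z j).pt} {E : ∀ j, Set (X j).pt} (h : FlipsIn f f' E) :
    hit f f' ⊆ E 0 := by
  have key : ∀ j (x : (X 0).pt) x', Cor ∅ (fun x : (X 0).pt => x) f f' j x x' → x' ∈ E j →
      x ∈ E 0 := by
    intro j
    induction j with
    | zero =>
      rintro x x' ⟨-, rfl⟩ hx'
      exact hx'
    | succ j ih =>
      rintro x x' ⟨x₁, h1, h2, -⟩ hx'
      exact ih x x₁ h1 (h.trans j x₁ x' h2 hx')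
  rintro x ⟨j, x', h1, h2⟩
  exact key j x x' h1 (h.locus j x' h2)

end Vale.Agent.P277.H29.E
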