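import Vale.Agent.P277.Stmts25
import Vale.Agent.P277.H29.CY.Trans
import Vale.Agent.P277.H615.D3
import Vale.Agent.P277.H371.C.FlipB

/-!
# P277, (E): flips of effective divisors take place inside the support
-/

set_option linter.unusedSectionVars false

open scoped Manifold ContDiff Topology
open Vale.Agent.P272.K Vale.Agent.P285.H281.FD Vale.Agent.P267.H175 Set Filter Metric

noncomputable section

namespace Vale.Agent.P277.H29.E

open Vale.Agent.P277 Vale.Agent.P277.T2 Vale.Agent.P277.T3 Vale.Agent.P277.H615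
open Vale.Agent.P277.H371.C Vale.Agent.P277.H29.CY

section

variable {X Z X' : CSp} {f : X.pt → Z.pt} {f' : X'.pt → Z.pt} {A : Set Z.pt} {K : ℕ}
  {L : Fin K → Bd X.pt} {L' : Fin K → Bd X'.pt}

/-- A section of `L` vanishes on the nontrivial fibres of `f`, if `L⁻¹` is `f`-ample. -/
theorem sec_zero (hZ : IsNormal 4 Z) (hX : IsNormal 4 X) (h : IsSmall X Z f A) {L : Bd X.pt}
    (hL : IsLBx X L) {S : L.ι → X.pt → ℂ} (hS : IsSecx X univ L S)
    (ha : RelAmple X Z f (Bd.inv L)) {x x' : X.pt} (hxx' : f x' = f x) (hne : x' ≠ x) {i : L.ι}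
    (hi : x ∈ L.U i) : S i x = 0 := by
  by_contra h0
  obtain ⟨V, k, N, s, hV, hz, hk, hs, hs0, hsep, -⟩ := ha (f x)
  obtain ⟨j, hj⟩ := hL.cover x'
  have hSk : IsSecx X (f ⁻¹' V) (L.pow k) (fun i x => S i x ^ k) :=
    ⟨fun i y _ hi => hol_pow (hS.holo i y (mem_univ _) hi) k, fun i j y _ hi hj => by
      show S i y ^ k = L.g i j y ^ k * S j y ^ k
      rw [hS.change i j y (mem_univ _) hi hj, mul_pow]⟩
  have hsk : ∀ l, IsSecx X (f ⁻¹' V) (Bd.inv (L.pow k)) (s l) := fun l =>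
    ⟨(hs l).holo, fun i j y hy hi hj => by
      have h1 : s l i y = (L.g i j y)⁻¹ ^ k * s l j y := (hs l).change i j y hy hi hj
      show s l i y = (L.g i j y ^ k)⁻¹ * s l j y
      rw [h1, inv_pow]⟩
  have hg : ∀ l, ∃ g : Z.pt → ℂ, (∀ z ∈ V, Z.Hol g z) ∧
      ∀ y i, f y ∈ V → y ∈ L.U i → S i y ^ k * s l i y = g (f y) := fun l =>
    prod_descend hZ hX h (IsLBx.pow hL k) hV hSk (hsk l)
  choose g hg hg' using hg
  have hz' : f x' ∈ V := by rw [hxx']; exact hz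
  have e : ∀ l, S i x ^ k * s l i x = S j x' ^ k * s l j x' := fun l => by
    rw [hg' l x i hz hi, hg' l x' j hz' hj, hxx']
  obtain ⟨l₀, hl₀⟩ := hs0 x i hz hi
  have h1 : S i x ^ k ≠ 0 := pow_ne_zero _ h0
  have h2 : S j x' ^ k ≠ 0 := by
    intro h3
    have h4 := e l₀
    rw [h3, zero_mul] at h4
    exact mul_ne_zero h1 hl₀ h4
  obtain ⟨l, m, hlm⟩ := hsep x x' i j hz hxx' hne hi hj
  refine hlm (mul_left_cancel₀ (mul_ne_zero h1 h2) ?_)
  calc S i x ^ k * S j x' ^ k * (s l i x * s m j x') =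
        (S i x ^ k * s l i x) * (S j x' ^ k * s m j x') := by ring
    _ = (S j x' ^ k * s l j x') * (S i x ^ k * s m i x) := by rw [e l, ← e m]
    _ = _ := by ring

/-- the integral combination `n` of the `L e` has a section without zeros outside `E` -/
def HasSec (X : CSp) (L : Fin K → Bd X.pt) (E : Set X.pt) (n : Fin K → ℤ) : Prop :=
  ∃ S : (Bd.lin L n).ι → X.pt → ℂ, IsSecx X univ (Bd.lin L n) S ∧
    ∀ x ∉ E, ∀ i, x ∈ (Bd.lin L n).U i → S i x ≠ 0

/-- transport of sections -/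
theorem hasSec_trans {c c' : Fin K → ℕ} {ρ : Fin K → ℝ}
    (h : IsFlipR X Z X' f f' (Amin f) L L' c c' ρ) {E : Set X.pt}
    (hE : ∀ x, f x ∈ Amin f → x ∈ E) {n : Fin K → ℤ} (hn : HasSec X L E n) :
    ∃ (N : ℕ) (n' : Fin K → ℤ), 1 ≤ N ∧ (∀ e, n' e * c' e = N * (n e * c e)) ∧
      HasSec X' L' {x' | ∃ x ∈ E, f x = f' x'} n' := by
  choose p q hp hq hpq t ht using h.iso
  obtain ⟨s, hs, hs0⟩ := hn
  set PP : ℕ := ∏ e, p e with hPP
  set r : Fin K → ℕ := fun e => ∏ e' ∈ Finset.univ.erase e, p e' with hr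
  have hrp : ∀ e, r e * p e = PP := fun e => by
    rw [mul_comm]
    exact Finset.mul_prod_erase _ _ (Finset.mem_univ e)
  have hPP1 : 1 ≤ PP := Finset.one_le_prod' fun e _ => hp e
  set m : Fin K → ℤ := fun e => n e * r e with hm
  have hlbp : ∀ e, IsLBx X ((L e).pow (p e)) := fun e => IsLBx.pow (h.lb e) _
  have hlbq : ∀ e, IsLBx X' ((L' e).pow (q e)) := fun e => IsLBx.pow (h.lb' e) _
  have hσ : IsSecx X univ (Bd.lin (fun e => (L e).pow (p e)) m) (fun a x => s a x ^ PP) := by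
    refine ⟨fun a x _ ha => hol_pow (hs.holo a x (mem_univ _) ha) _,
      fun a b x _ ha hb => ?_⟩
    have h1 := hs.change a b x (mem_univ _) ha hb
    show s a x ^ PP = (∏ e, ((L e).g (a e) (b e) x ^ p e) ^ m e) * s b x ^ PP
    rw [h1]
    show ((∏ e, (L e).g (a e) (b e) x ^ n e) * s b x) ^ PP = _
    rw [mul_pow, ← Finset.prod_pow]
    congr 1
    refine Finset.prod_congr rfl fun e _ => ?_
    rw [← zpow_natCast, ← zpow_mul, ← zpow_natCast, ← zpow_mul]
    congr 1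
    show n e * (PP : ℤ) = (p e : ℤ) * (n e * (r e : ℤ))
    rw [← hrp e]
    push_cast
    ring
  have hiso := IsIso.lin ht m
  obtain ⟨σ', h2, h3⟩ := exists_sec_flip (p := 1) (q := 1) (P := 1) h.normal' h.small h.small'
    (IsLBx.lin hlbp m) (IsLBx.lin hlbq m) (t := fun i j z =>
      ∏ e, t e (i e) (j e) z ^ m e) (isIso_one hiso)
    (σ := fun a x => s a x ^ PP) (isSecx_one.2 hσ)
  refine ⟨PP, fun e => m e * q e, hPP1, fun e => ?_, ?_⟩
  · have h3 := hpq e
    have h4 : (c e : ℤ) * p e = c' e * q e := by exact_mod_cast h3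
    show n e * (r e : ℤ) * (q e : ℤ) * (c' e : ℤ) = (PP : ℤ) * (n e * (c e : ℤ))
    rw [← hrp e]
    push_cast
    linear_combination (-(n e * (r e : ℤ))) * h4
  · have h5 : Bd.lin (fun e => (L' e).pow (q e)) m = Bd.lin L' (fun e => m e * q e) := by
      rw [lin_pow]
    have h6 : ∃ S : (Bd.lin (fun e => (L' e).pow (q e)) m).ι → X'.pt → ℂ,
        IsSecx X' univ (Bd.lin (fun e => (L' e).pow (q e)) m) S ∧
        ∀ x ∉ {x' | ∃ x ∈ E, f x = f' x'}, ∀ i,
          x ∈ (Bd.lin (fun e => (L' e).pow (q e)) m).U i → S i x ≠ 0 := by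
      refine ⟨σ', isSecx_one.1 h2, fun x' hx' b hb => ?_⟩
      obtain ⟨x, hx⟩ := h.small.surj (f' x')
      have hxE : x ∉ E := fun h7 => hx' ⟨x, h7, hx⟩
      have hxA : f x ∉ Amin f := fun h7 => hxE (hE x h7)
      choose al hal using fun e => (h.lb e).cover x
      have h8 := h3 x x' al b hxA hx.symm hal hb
      rw [← h8, pow_one, pow_one]
      refine mul_ne_zero (pow_ne_zero _ (hs0 x hxE al hal)) (Finset.prod_ne_zero_iff.2 fun e _ =>
        zpow_ne_zero _ ((ht e).holo x x' (al e) (b e) hxA hx.symm (hal e) (hb e)).2)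
    rw [h5] at h6
    exact h6

/-- `θ` is a limit of rational combinations with a multiple which has a section without zeros outside
`E` -/
def LimEff (X : CSp) (L : Fin K → Bd X.pt) (c : Fin K → ℕ) (E : Set X.pt) (θ : Fin K → ℝ) : Prop :=
  ∀ δ : ℝ, 0 < δ → ∃ (n : Fin K → ℤ) (w : ℕ), 1 ≤ w ∧ HasSec X L E n ∧
    ∀ e, |(n e * c e : ℝ) / w - θ e| < δ

theorem LimEff.trans {c c' : Fin K → ℕ} {ρ θ : Fin K → ℝ}
    (h : IsFlipR X Z X' f f' (Amin f) L L' c c' ρ) {E : Set X.pt}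
    (hE : ∀ x, f x ∈ Amin f → x ∈ E) (hθ : LimEff X L c E θ) :
    LimEff X' L' c' {x' | ∃ x ∈ E, f x = f' x'} θ := by
  intro δ hδ
  obtain ⟨n, w, hw, hn, hd⟩ := hθ δ hδ
  obtain ⟨N, n', hN, hn', hs⟩ := hasSec_trans h hE hn
  refine ⟨n', N * w, Nat.mul_pos hN hw, hs, fun e => ?_⟩
  have hN0 : (N : ℝ) ≠ 0 := by exact_mod_cast (Nat.one_le_iff_ne_zero.1 hN)
  have hw0 : (w : ℝ) ≠ 0 := by exact_mod_cast (Nat.one_le_iff_ne_zero.1 hw)
  have h1 : (n' e * c' e : ℝ) = N * (n e * c e) := by exact_mod_cast hn' e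
  have h2 : (n' e * c' e : ℝ) / ((N * w : ℕ) : ℝ) = (n e * c e : ℝ) / w := by
    rw [h1]
    push_cast
    field_simp
  rw [h2]
  exact hd e

/-- the flipping locus is contained in the support -/
theorem LimEff.locus {c c' : Fin K → ℕ} {ρ : Fin K → ℝ}
    (h : IsFlipR X Z X' f f' A L L' c c' ρ) {E : Set X.pt} (hθ : LimEff X L c E ρ) {x : X.pt}
    (hx : f x ∈ Amin f) : x ∈ E := by
  by_contra hxE
  obtain ⟨ε, hε, ha⟩ := h.ample
  obtain ⟨n, w, hw, ⟨S, hS, hS0⟩, hd⟩ := hθ ε hε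
  have h1 := ha n w hw hd
  obtain ⟨x', hx', hne⟩ : ∃ x', f x' = f x ∧ x' ≠ x := by
    obtain ⟨x₁, x₂, h1, h2, h3⟩ := hx
    by_cases h4 : x₁ = x
    · exact ⟨x₂, h2, fun h5 => h3 (h4.trans h5.symm)⟩
    · exact ⟨x₁, h1, h4⟩
  have hlb := IsLBx.lin h.lb n
  obtain ⟨i, hi⟩ := hlb.cover x
  exact hS0 x hxE i hi (sec_zero h.normalZ h.normal h.small hlb hS h1 hx' hne hi)

end

/-- approximation of real relations by rational ones -/
theorem approx_gen {κ : Type} [Fintype κ] {P : (κ → ℤ) → Prop} (h0 : P 0)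
    (hadd : ∀ n n', P n → P n' → P (n + n')) (hsmul : ∀ (a : ℤ) n, P n → P (a • n))
    {c : κ → ℕ} {θ : κ → ℝ}
    (h : θ ∈ Submodule.span ℝ {x : κ → ℝ | ∃ n : κ → ℤ, P n ∧ ∀ e, x e = n e * c e}) :
    ∀ δ : ℝ, 0 < δ → ∃ (n : κ → ℤ) (w : ℕ), 1 ≤ w ∧ P n ∧ ∀ e, |(n e * c e : ℝ) / w - θ e| < δ := by
  induction h using Submodule.span_induction with
  | mem x hx =>
    intro δ hδ
    obtain ⟨n, hn, hx⟩ := hx
    refine ⟨n, 1, le_rfl, hn, fun e => ?_⟩
    rw [hx e]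
    simpa using hδ
  | zero =>
    intro δ hδ
    refine ⟨0, 1, le_rfl, h0, fun e => ?_⟩
    simpa using hδ
  | add x y _ _ hx hy =>
    intro δ hδ
    obtain ⟨n, w, hw, hn, hx⟩ := hx (δ / 2) (by positivity)
    obtain ⟨n', w', hw', hn', hy⟩ := hy (δ / 2) (by positivity)
    refine ⟨(w' : ℤ) • n + (w : ℤ) • n', w * w', Nat.mul_pos hw hw',
      hadd _ _ (hsmul _ _ hn) (hsmul _ _ hn'), fun e => ?_⟩
    have hw0 : (w : ℝ) ≠ 0 := by exact_mod_cast (Nat.one_le_iff_ne_zero.1 hw)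
    have hw0' : (w' : ℝ) ≠ 0 := by exact_mod_cast (Nat.one_le_iff_ne_zero.1 hw')
    have e1 : ((((w' : ℤ) • n + (w : ℤ) • n') e * c e : ℝ)) / ((w * w' : ℕ) : ℝ) - (x + y) e =
        ((n e * c e : ℝ) / w - x e) + ((n' e * c e : ℝ) / w' - y e) := by
      simp only [Pi.add_apply, Pi.smul_apply, smul_eq_mul]
      push_cast
      field_simp
      ring
    rw [e1]
    calc _ ≤ |(n e * c e : ℝ) / w - x e| + |(n' e * c e : ℝ) / w' - y e| := abs_add_le _ _
      _ < δ / 2 + δ / 2 := add_lt_add (hx e) (hy e)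
      _ = δ := by ring
  | smul a x _ hx =>
    intro δ hδ
    obtain ⟨n, w, hw, hn, hx⟩ := hx (δ / (2 * (|a| + 1))) (by positivity)
    obtain ⟨C, hC, hC'⟩ : ∃ C : ℝ, 0 < C ∧ ∀ e, |(n e * c e : ℝ) / w| ≤ C := by
      refine ⟨∑ e, |(n e * c e : ℝ) / w| + 1, by positivity, fun e => ?_⟩
      have := Finset.single_le_sum (f := fun e => |(n e * c e : ℝ) / w|) (fun e _ => abs_nonneg _)
        (Finset.mem_univ e)
      linarith
    obtain ⟨q, hq1, hq2⟩ := exists_rat_btwn (show a - δ / (2 * C) < a + δ / (2 * C) by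
      have : 0 < δ / (2 * C) := by positivity
      linarith)
    have hq : |(q : ℝ) - a| < δ / (2 * C) := by
      rw [abs_lt]; constructor <;> linarith
    refine ⟨q.num • n, q.den * w, Nat.mul_pos q.pos hw, hsmul _ _ hn, fun e => ?_⟩
    have hw0 : (w : ℝ) ≠ 0 := by exact_mod_cast (Nat.one_le_iff_ne_zero.1 hw)
    have hd0 : (q.den : ℝ) ≠ 0 := by exact_mod_cast q.den_ne_zero
    have hqe : (q : ℝ) = q.num / q.den := by exact_mod_cast (Rat.num_div_den q).symm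
    have e1 : (((q.num • n) e * c e : ℝ)) / ((q.den * w : ℕ) : ℝ) - (a • x) e =
        ((q : ℝ) - a) * ((n e * c e : ℝ) / w) + a * ((n e * c e : ℝ) / w - x e) := by
      simp only [Pi.smul_apply, smul_eq_mul]
      rw [hqe]
      push_cast
      field_simp
      ring
    rw [e1]
    have h1 : |((q : ℝ) - a) * ((n e * c e : ℝ) / w)| ≤ |(q : ℝ) - a| * C := by
      rw [abs_mul]
      exact mul_le_mul_of_nonneg_left (hC' e) (abs_nonneg _)
    have h2 : |(q : ℝ) - a| * C < δ / 2 := by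
      have := mul_lt_mul_of_pos_right hq hC
      have e2 : δ / (2 * C) * C = δ / 2 := by field_simp
      rwa [e2] at this
    have h3 : |a * ((n e * c e : ℝ) / w - x e)| ≤ (|a| + 1) * (δ / (2 * (|a| + 1))) := by
      rw [abs_mul]
      exact mul_le_mul (by linarith [abs_nonneg a]) (hx e).le (abs_nonneg _) (by positivity)
    have h4 : (|a| + 1) * (δ / (2 * (|a| + 1))) = δ / 2 := by
      have : |a| + 1 ≠ 0 := by positivity
      field_simp
    calc _ ≤ |((q : ℝ) - a) * ((n e * c e : ℝ) / w)| + |a * ((n e * c e : ℝ) / w - x e)| :=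
          abs_add_le _ _
      _ < δ / 2 + δ / 2 := by linarith
      _ = δ := by ring

end Vale.Agent.P277.H29.E
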