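import Vale.Agent.P277.H335.K.RegL
import Vale.Agent.P277.H29.E.LiftE
import Vale.Agent.P277.H29.E.An

/-!
# P277, (E): (REGE)
-/

open scoped Manifold ContDiff Topology
open Vale.Agent.P272.K Vale.Agent.P285.H281.FD Vale.Agent.P267.H175 Set Metric Filter

noncomputable section

namespace Vale.Agent.P277.H29.E

open Vale.Agent.P277 Vale.Agent.P277.T2 Vale.Agent.P277.H335 Vale.Agent.P277.H615
open Vale.Agent.P277.H335.RR Vale.Agent.P277.H335.KK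

/-- (REGE) -/
theorem stRegE : T3.StRegE := by
  intro Y _ _ _ _ _ χ k s M m ρ H _ _ _ _ _ _ ι sg W X Z r v₀ p P G f f' A L c σ n t h E hE I K I'
    hI hI' hK1 hN j
  have hsum : ∑ e : Fin k, ρ (Fin.castAdd s e) * m (Fin.castAdd s e) = 1 := by
    have h1 := h.sum
    rw [Fin.sum_univ_add] at h1
    simpa only [h.m0, Nat.cast_zero, mul_zero, Finset.sum_const_zero, add_zero] using h1
  have hk : 1 ≤ k := by
    rcases Nat.eq_zero_or_pos k with rfl | h1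
    · simp at hsum
    · exact h1
  set Nb : Set Y := T3.bad ι G I I' ∪ T3.cross ι G K with hNb
  have hn : ∀ l ∉ K, 0 ≤ ∑ e, ρ e * n e l / c 0 e ∨ G l ⊆ Nb := by
    intro l hlK
    by_cases hl : l ∈ I
    · exact Or.inr fun y hy => Or.inl (Or.inl (mem_iUnion₂.2 ⟨l, hl, hy⟩))
    · exact Or.inl (hI l hl hlK)
  have hn' : ∀ l, 0 ≤ ∑ e, ρ e * n e l / c 0 e ∨ G l ⊆ (univ : Set Y) := fun l =>
    Or.inr (subset_univ _)
  have hrc : ∀ i, IsClosed (range (ι i)) := fun i =>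
    (isCompact_range (h.bd i).sub.cont).isClosed
  have hbc : IsClosed Nb := (T3.isClosed_bad h.res.closed fun i => (h.bd i).sub.cont).union
    (isClosed_cross h.res.closed hrc)
  obtain ⟨O, v, P', Q', T, hT⟩ := H884.G.exists_twSeqG H884.stL0 (by omega) h.lb h.res h.c1 h.cmp
    h.corr hn' h.flip
  obtain ⟨pp, qq, s', a, hf, d, b, -, -, -, -, -, -, -, -, -⟩ := hT.step j
  have hTw := hT.tw j
  have hch := exists_chainK H884.stL0 (by omega) (h.flip 0).flip.normal h.lb h.res h.cmp hT j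
  have hsub := hT.sub_compl j
  have hdn : ∀ i, range (ι i) ⊆ closure (range (ι i) ∩ O (j + 1)) := by
    intro i
    have hne : Nonempty Y := ⟨ι i (Classical.arbitrary (H i))⟩
    exact (hyp_dense h.res.emb h.res.hyp h.res.closed (isHyp_of_bd (h.lb _) (h.bd i))
      (isPreconnected_range (h.bd i).sub.cont)
      (fun l hl => h.ne i (hl.trans (subset_iUnion G l)))
      (hTw.tw ⟨0, by omega⟩).emb.isOpen (hTw.tw ⟨0, by omega⟩).thin).2.1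
  have hS : ∀ i : Fin s, SecRel (L (j + 1) (Fin.natAdd k i))
      (((Bd.can 4 Y).pow (m (Fin.natAdd k i))).mul (M (Fin.natAdd k i))) (O (j + 1)) (v (j + 1))
      (P' (j + 1) (Fin.natAdd k i)) (Q' (j + 1) (Fin.natAdd k i)) (T (j + 1) (Fin.natAdd k i))
      (fun b y => sg i b.2 y) := by
    intro i
    have h1 := (h.flip (j + 1)).sec i
    refine ⟨fun a x => σ (j + 1) i a x ^ P' (j + 1) (Fin.natAdd k i),
      ⟨fun a x hx ha => hol_pow (h1.holo a x hx ha) _, fun a b x hx ha hb => ?_⟩, ?_⟩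
    · show σ (j + 1) i a x ^ P' (j + 1) (Fin.natAdd k i) = (L (j + 1) (Fin.natAdd k i)).g a b x ^
        P' (j + 1) (Fin.natAdd k i) * σ (j + 1) i b x ^ P' (j + 1) (Fin.natAdd k i)
      rw [h1.change a b x hx ha hb, mul_pow]
    · rintro y hy a ⟨ch, b⟩ ha ⟨hb1, hb2⟩
      rw [mul_comm]
      exact hT.sec (j + 1) i y a ch b hy ha hb1 hb2
  have hlt : ∀ i : Fin s, ρ (Fin.natAdd k i) ≤ 1 ∨ range (ι i) ⊆ Nb := by
    intro i
    by_cases hi : i ∈ I'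
    · exact Or.inr fun y hy => Or.inl (Or.inr (mem_iUnion₂.2 ⟨i, hi, hy⟩))
    · exact Or.inl (hI' i hi)
  have hK2 : ∀ l ∈ K, ∀ l' ∈ K, l ≠ l' → G l ∩ G l' ⊆ Nb := fun l hl l' hl' hll y hy =>
    Or.inr ⟨l, hl, hy.1, Or.inl ⟨l', hl', hll.symm, hy.2⟩⟩
  have hlt' : ∀ l ∈ K, ∀ i, G l ∩ range (ι i) ⊆ Nb := fun l hl i y hy =>
    Or.inr ⟨l, hl, hy.1, Or.inr ⟨i, hy.2⟩⟩
  set Cr := T3.Cor (⋃ l, G l) (fun y => p (v₀ y)) f f' (j + 1) with hCr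
  -- the preimage of `E 0`
  have hsm : ∀ j, IsSmall (X j) (Z j) (f j) (Amin (f j)) := fun j => by
    obtain ⟨pp, qq, s', a, hf, -⟩ := hT.step j
    exact hf.small
  have hsm' : ∀ j, IsSmall (X (j + 1)) (Z j) (f' j) (Amin (f j)) := fun j => by
    obtain ⟨pp, qq, s', a, hf, -⟩ := hT.step j
    exact hf.small'
  have hvc : Continuous fun y => p (v₀ y) := h.res.cont.comp (continuousOn_univ.1 h.res.emb.cont)
  set Eh : Set Y := {y | p (v₀ y) ∈ E 0} with hEh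
  have hEc : IsClosed Eh := (isClosed_of_isAn hE.an).preimage hvc
  have hEan : ∀ y, T3.IsAnAt 4 Eh y := isAnAt_pre h.res hE.an
  have hin : ∀ (W₁ : Set (Cm 4)) (φ : Cm 4 → (X (j + 1)).pt) (γ : Cm 4 → Y) (w : Cm 4),
      w ∈ W₁ → ContinuousAt φ w → ContinuousAt γ w →
      W₁ ⊆ closure {w | w ∈ W₁ ∧ φ w ∈ v (j + 1) '' O (j + 1)} →
      (∀ w ∈ W₁, φ w ∈ v (j + 1) '' O (j + 1) → γ w ∈ O (j + 1)) →
      (∀ w ∈ W₁, γ w ∈ O (j + 1) → v (j + 1) (γ w) = φ w) → φ w ∈ f' j ⁻¹' Amin (f j) →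
      γ w ∈ Eh := by
    intro W₁ φ γ w hw hφ hγ hcl hO1 hO2 hA
    by_contra hy
    obtain ⟨x', -, hx', hcv⟩ := cont_off' (D := ⋃ l, G l) hsm hsm' hE hvc hy j
    have hfr : ∃ᶠ w' in 𝓝 w, Cr (γ w') (φ w') := by
      refine (mem_closure_iff_frequently.1 (hcl hw)).mono fun w' hw' => ?_
      have h1 := hO1 w' hw'.1 hw'.2
      exact (cor_iff' hT (j + 1) _ _).2 ⟨h1, hO2 w' hw'.1 h1⟩
    have h1 := eq_of_cv hφ hγ hfr hcv
    rw [h1] at hA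
    exact hx' hA
  refine regCoreG h.kahler (M := fun e => M (Fin.castAdd s e)) (fun e => h.lb _) h.nef
    (m := fun e => m (Fin.castAdd s e)) h.pos (ρ := fun e => ρ (Fin.castAdd s e))
    (fun e => h.rho _) hsum
    hf.normal' (hTw.tw ⟨0, by omega⟩).emb (hTw.tw ⟨0, by omega⟩).dim
    (L := fun e => (L (j + 1) (Fin.castAdd s e)).pow (P' (j + 1) (Fin.castAdd s e)))
    (fun e => (hTw.tw _).lb) (Q := fun e => Q' (j + 1) (Fin.castAdd s e))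
    (fun e => (hTw.tw _).hQ)
    (T := fun e => T (j + 1) (Fin.castAdd s e)) (fun e => (hTw.tw _).iso)
    (IsAn.preimage (fun x => hf.small'.holMap x) hf.small'.an) hsub
    (Nc := T3.Tot Cr (Nb ∩ Eh) ∪ closure (T3.Val Cr (⋃ l ∈ {l | l ∈ K ∧ G l ⊆ Eh}, G l)))
    ((H884.G.isClosed_tot _ (hbc.inter hEc)).union isClosed_closure) (hN j) ?_
  intro B w₀ φ hB hw₀ h0 hφ hSc hN' hcl
  refine liftV_of_chainE (S := f' j ⁻¹' Amin (f j))
    (Nc := T3.Tot Cr (Nb ∩ Eh) ∪ closure (T3.Val Cr (⋃ l ∈ {l | l ∈ K ∧ G l ⊆ Eh}, G l)))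
    (N := Nb) (a := fun l => ∑ e, ρ e * n e l / c 0 e) (Ks := K)
    h.lb hTw.tw hTw.lb ?_ hn hK1 hK2 hlt' h.rho hlt h.bd h.disj hdn hS hsub hB hw₀ h0 hφ hSc hN'
    hcl ?_
  · intro W w₀ γ' i hW hw₀ h0 hγ hcl hi hSN
    obtain ⟨w₁, hw₁, hw₁0, W₁, γ₀, ch, cc, q, g1, g2, g3, g4, g5, g6, g7, b₀, g8, -, g9⟩ :=
      hch W w₀ γ' i hW hw₀ h0 hγ hcl hi
    have hcl₁ := subset_closure_of_open g1 g3 hcl
    have hb : ∀ w ∈ W₁, w 0 = 0 → γ₀ w ∉ Nb := by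
      intro w hw hw0 hNb
      have h1 : γ₀ w ∈ Eh := hin W₁ γ' γ₀ w hw (hγ w (g3 hw)).1 (g4 w hw).1 hcl₁ g5 g6
        (hSN w (g3 hw) hw0).1
      exact H884.G.notMem_of_tot (fun y hy => (cor_iff' hT (j + 1) y _).2 ⟨hy, rfl⟩)
        hcl₁ g5 g6 hw (g4 w hw).1 (hγ w (g3 hw)).1
        (fun h => (hSN w (g3 hw) hw0).2 (Or.inl h)) ⟨hNb, h1⟩
    exact ⟨w₁, hw₁, hw₁0, W₁, γ₀, ch, cc, q, g1, g2, g3, g4, g5, g6, g7,
      ⟨b₀, g8, g9 (fun w hw hw0 => (hSN w hw hw0).1)⟩, hb⟩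
  · rintro W₁ γ w₂ hW₁ hw₂ hW₁W hγc hO1 hO2 l hl hlG hev hopen
    by_cases hGE : G l ⊆ Eh
    · refine Or.inr (subset_closure ⟨γ w₂, mem_iUnion₂.2 ⟨l, ⟨hl, hGE⟩, hlG⟩, fun U hU => ?_⟩)
      have h1 : γ '' (φ ⁻¹' U ∩ W₁) ∈ 𝓝 (γ w₂) :=
        hopen (image_mem_map (inter_mem ((hφ w₂ (hW₁W hw₂)).1.preimage_mem_nhds hU)
          (hW₁.mem_nhds hw₂)))
      filter_upwards [h1]
      rintro y' ⟨w', ⟨h2, h3⟩, rfl⟩ x' hx'
      obtain ⟨h4, rfl⟩ := (cor_iff' hT (j + 1) _ _).1 hx'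
      rw [hO2 w' h3 h4]
      exact h2
    · exfalso
      have h1 : γ '' ({w | γ w ∈ G l → w 0 = 0} ∩ W₁) ∈ 𝓝 (γ w₂) :=
        hopen (image_mem_map (inter_mem hev (hW₁.mem_nhds hw₂)))
      have h2 := sub_closure_an (h.res.hyp l) (h.res.conn l) hEc hEan hGE hlG
      obtain ⟨y, ⟨w, ⟨hw1, hw2⟩, rfl⟩, hy1, hy2⟩ := mem_closure_iff_nhds.1 h2 _ h1
      exact hy2 (hin W₁ φ γ w hw2 (hφ w (hW₁W hw2)).1 (hγc w hw2)
        (subset_closure_of_open hW₁ hW₁W hcl) hO1 hO2 (hSc w (hW₁W hw2) (hw1 hy1)))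

end Vale.Agent.P277.H29.E
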