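import Vale.Agent.P277.Stmts26
import Vale.Agent.P277.H29.E.Eff2

/-!
# P277, (T7): the final form
-/

open scoped Manifold ContDiff Topology
open Vale.Agent.P272.K Vale.Agent.P285.H281.FD Vale.Agent.P267.H175 Set Filter Metric

noncomputable section

namespace Vale.Agent.P277.H29.E

open Vale.Agent.P277 Vale.Agent.P277.T3

/-- (T7F) -/
theorem stT7F : T3.StT7F := by
  intro Y _ _ _ _ _ χ hχ k s M hM hnef m hm hm0 ρ hρ hsum H _ _ _ _ _ _ ι sg hbd hdisj W X Z r
    v p P G hres hne f f' A L c hc n hn hflip E₀ hE a ha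
  obtain ⟨E, rfl, hE'⟩ : ∃ E : ∀ j, Set (X j).pt, E 0 = E₀ ∧ FlipsIn f f' E := by
    rcases hE with hE | hE
    · exact flipsIn_of_eff hc hflip hE
    · exact hE
  refine ⟨fun h => ?_, fun h => ?_⟩
  · exact stT4EF Y χ hχ k s M hM hnef m hm hm0 ρ hρ hsum H ι sg hbd hdisj W X Z r v p P G hres hne
      f f' A L c hc n hn hflip E hE' a ha h.2 h.1
  · obtain ⟨hb, hklt, hd1, hd2, hcen⟩ := h
    exact stT4EK Y χ hχ k s M hM hnef m hm hm0 ρ hρ hsum H ι sg hbd hdisj hb W X Z r v p P G hres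
      hne f f' A L c hc n hn hflip a ha hklt hd1 hd2 E hE' hcen

end Vale.Agent.P277.H29.E
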