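import Vale.Agent.P277.H29.E.RegH
import Vale.Agent.P277.H29.E.FinE
import Vale.Agent.P277.H60.Z.Chain

/-!
# P277, (T7H): the assembly
-/

set_option maxSynthPendingDepth 3

open scoped Manifold ContDiff Topology
open Vale.Agent.P272.K Vale.Agent.P285.H281.FD Vale.Agent.P267.H175 Set Filter Metric

noncomputable section

namespace Vale.Agent.P277.H29.E

open Vale.Agent.P277 Vale.Agent.P277.T3 H615 H371.C

section
variable {Y : Type} [TopologicalSpace Y] [ChartedSpace (Cm 4) Y]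

theorem isAnAt_inter {C C' : Set Y} {y : Y}
    (h : T3.IsAnAt 4 C y) (h' : T3.IsAnAt 4 C' y) : T3.IsAnAt 4 (C ∩ C') y := by
  obtain ⟨k, g, hg, hC⟩ := h
  obtain ⟨k', g', hg', hC'⟩ := h'
  refine ⟨k + k', Fin.append g g', fun i e he => ?_, ?_⟩
  · refine Fin.addCases (fun i => ?_) (fun i => ?_) i
    · rw [Fin.append_left]
      exact hg i e he
    · rw [Fin.append_right]
      exact hg' i e he
  · filter_upwards [hC, hC'] with y' h1 h2
    rw [mem_inter_iff, h1, h2]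
    constructor
    · rintro ⟨h3, h4⟩ i
      refine Fin.addCases (fun i => ?_) (fun i => ?_) i
      · rw [Fin.append_left]
        exact h3 i
      · rw [Fin.append_right]
        exact h4 i
    · intro h3
      refine ⟨fun i => ?_, fun i => ?_⟩
      · have := h3 (Fin.castAdd k' i)
        rwa [Fin.append_left] at this
      · have := h3 (Fin.natAdd k i)
        rwa [Fin.append_right] at this

variable [IsManifold 𝓘(ℂ, Cm 4) ω Y]

/-- smooth connected hypersurfaces are irreducible -/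
theorem not_sub_biUnion {κ : Type} {E : Set Y} (hE : T2.IsHyp E) (hEc : IsPreconnected E)
    (hne : E.Nonempty) {D : κ → Set Y} (hDc : ∀ i, IsClosed (D i))
    (hD : ∀ i, ∀ y, T3.IsAnAt 4 (D i) y) (s : Finset κ) (h : ∀ i ∈ s, ¬ E ⊆ D i) :
    ¬ E ⊆ ⋃ i ∈ s, D i := by
  classical
  induction s using Finset.induction_on with
  | empty =>
    intro h1
    obtain ⟨y, hy⟩ := hne
    simpa using h1 hy
  | insert i s hi ih =>
    intro h1
    rw [Finset.set_biUnion_insert] at h1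
    have h2 := ih fun j hj => h j (Finset.mem_insert_of_mem hj)
    have h3 := sub_closure_an hE hEc (isClosed_biUnion_finset fun j _ => hDc j)
      (fun y => H60.Z.isAnAt_biUnion s fun j _ => hD j y) h2
    have h4 : closure (E \ ⋃ j ∈ s, D j) ⊆ D i := by
      refine closure_minimal ?_ (hDc i)
      rintro y ⟨h5, h6⟩
      exact (h1 h5).resolve_right h6
    exact h i (Finset.mem_insert_self _ _) (h3.trans h4)

end

/-- (T7H), the first part -/
theorem stT7H_fst {Y : Type} [TopologicalSpace Y] [T2Space Y] [CompactSpace Y]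
    [ChartedSpace (Cm 4) Y]
    [IsManifold 𝓘(ℂ, Cm 4) ω Y] {χ : Chart 4 Y → Cm 4 → Matrix (Fin 4) (Fin 4) ℂ}
    (hχ : IsKahler χ) {k s : ℕ} {M : Fin (k + s) → Bd Y} (hM : ∀ e, IsLB 4 (M e))
    (hnef : ∀ e : Fin k, Nef χ (M (Fin.castAdd s e))) {m : Fin (k + s) → ℕ}
    (hm : ∀ e : Fin k, 1 ≤ m (Fin.castAdd s e)) (hm0 : ∀ i : Fin s, m (Fin.natAdd k i) = 0)
    {ρ : Fin (k + s) → ℝ} (hρ : ∀ e, 0 < ρ e) (hsum : ∑ e, ρ e * m e = 1) {H : Fin s → Type}
    [∀ i, TopologicalSpace (H i)] [∀ i, T2Space (H i)] [∀ i, CompactSpace (H i)]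
    [∀ i, ConnectedSpace (H i)] [∀ i, ChartedSpace (Cm 3) (H i)]
    [∀ i, IsManifold 𝓘(ℂ, Cm 3) ω (H i)] {ι : ∀ i, H i → Y}
    {sg : ∀ i : Fin s, (M (Fin.natAdd k i)).ι → Y → ℂ}
    (hbd : ∀ i, IsBd (ι i) (M (Fin.natAdd k i)) (sg i))
    (hdisj : Pairwise fun i j => Disjoint (range (ι i)) (range (ι j)))
    {W : CSp} {X Z : ℕ → CSp} {r : ℕ} {v : Y → W.pt} {p : W.pt → (X 0).pt} {P : Bd W.pt}
    {G : Fin r → Set Y} (hres : T2.IsRes v p P G) (hne : ∀ i, ¬ range (ι i) ⊆ ⋃ l, G l)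
    {f : ∀ j, (X j).pt → (Z j).pt} {f' : ∀ j, (X (j + 1)).pt → (Z j).pt}
    {A : ∀ j, Set (Z j).pt} {L : ∀ j, Fin (k + s) → Bd (X j).pt} {c : ℕ → Fin (k + s) → ℕ}
    (hc : ∀ j e, 1 ≤ c j e) {n : Fin (k + s) → Fin r → ℤ}
    (hn : ∃ t, T2.IsCmpV (fun y => p (v y)) (L 0)
      (fun e => (((Bd.can 4 Y).pow (m e)).mul (M e)).pow (c 0 e)) G n t)
    (hflip : ∀ j, IsFlipR (X j) (Z j) (X (j + 1)) (f j) (f' j) (A j) (L j) (L (j + 1)) (c j)
      (c (j + 1)) ρ)
    {a : Fin r → ℝ} (ha : ∀ l, a l = ∑ e, ρ e * n e l / c 0 e)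
    (h2 : ∃ J, ∀ j ≥ J, DimLe (X (j + 1)) 1 {x | BadPt {x | f' j x ∈ Amin (f j)}
      (Cor (⋃ l, G l) (fun y => p (v y)) f f' (j + 1))
      ((bad ι G {l | a l < 0 ∧ (a l ≤ -1 ∨ ZD (fun y => p (v y)) (hit f f') (G l))}
          {i | 1 ≤ ρ (Fin.natAdd k i)} ∪
        cross ι G {l | -1 < a l ∧ a l < 0}) ∩ {y | p (v y) ∈ hit f f'}) x})
    (h1 : ∀ j, DimLe (X (j + 1)) 1 {x | f' j x ∈ Amin (f j) ∧ ¬ IsReg 4 (X (j + 1)) x ∧
        (x ∈ Tot (Cor (⋃ l, G l) (fun y => p (v y)) f f' (j + 1))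
          (closure ((bad ι G {l | a l < -1} {i | 1 < ρ (Fin.natAdd k i)} ∪
            cross ι G {l | -1 ≤ a l ∧ a l < 0}) ∩ {y | p (v y) ∈ hit f f'})) ∨
        x ∈ closure (Val (Cor (⋃ l, G l) (fun y => p (v y)) f f' (j + 1))
          (⋃ l ∈ {l | (-1 ≤ a l ∧ a l < 0) ∧ ZD (fun y => p (v y)) (hit f f') (G l)}, G l)))}) :
    False := by
  classical
  obtain ⟨J₀, h2⟩ := h2
  obtain ⟨L', c', σ, t, hc', hcmp, hcorr, hcc, hfl⟩ :=
    H371.G.wrap_core (ι := ι) hM hm0 hbd hres hc hn hflip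
  have h' : IsPG χ M m ρ ι sg v p P G f f' A L' c' σ n t :=
    ⟨hχ, hM, hnef, hm, hm0, hρ, hsum, hbd, hdisj, hres, hne, hc', hcmp, hcorr, hfl⟩
  have ha' : ∀ l, a l = ∑ e, ρ e * n e l / c' 0 e := by
    intro l
    simp only [hcc]
    exact ha l
  have hreg : ∀ j, DimLe (X (j + 1)) 1
      {x | x ∈ f' j ⁻¹' Amin (f j) ∧ ¬ IsReg 4 (X (j + 1)) x} := by
    refine stRegH Y χ k s M m ρ H ι sg W X Z r v p P G f f' A L' c' σ n t h'
      {l | a l < -1} {l | -1 ≤ a l ∧ a l < 0} {i | 1 < ρ (Fin.natAdd k i)}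
      (fun l hl hlK => ?_) (fun i hi => not_lt.1 hi) (fun l hl => ?_) h1
    · rw [← ha']
      by_contra h3
      exact hlK ⟨not_lt.1 hl, not_le.1 h3⟩
    · rw [← ha']; exact hl.1
  have h := h'.amin
  have hsm : ∀ j, IsSmall (X j) (Z j) (f j) (Amin (f j)) := fun j => (h.flip j).flip.small
  have hsm' : ∀ j, IsSmall (X (j + 1)) (Z j) (f' j) (Amin (f j)) := fun j =>
    (h.flip j).flip.small'
  have hvc : Continuous fun y => p (v y) := hres.cont.comp (continuousOn_univ.1 hres.emb.cont)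
  have hneY : Nonempty Y := by
    have h3 := (h.flip 0).flip.ninj
    rw [Function.Injective] at h3
    push Not at h3
    obtain ⟨x, -⟩ := h3
    obtain ⟨w, -⟩ := hres.psurj x
    obtain ⟨y, -⟩ := hres.surj w
    exact ⟨y⟩
  -- the image of the correspondence is dense
  have hdense : ∀ j, Dense {x | ∃ y, Cor (⋃ l, G l) (fun y => p (v y)) f f' (j + 1) y x} := by
    intro j
    have hseq := isSeq_sq hsm hsm' hres.emb' (by
      refine (hres.dim).mono ?_
      intro x hx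
      obtain ⟨w, rfl⟩ := hres.psurj x
      obtain ⟨y, rfl⟩ := hres.surj w
      refine ⟨y, ?_, rfl⟩
      by_contra hy
      exact hx ⟨y, hy, rfl⟩)
    have h3 := dense_compl_of_dimLe (by norm_num) (h.flip j).flip.normal'.dense (hseq.dim (j + 1))
    rw [compl_compl] at h3
    refine h3.mono ?_
    rintro _ ⟨y, hy, rfl⟩
    refine ⟨y, (H884.G.cor_iff (D := ⋃ l, G l) (v₀ := fun y => p (v y))
      (O := fun j => (sq f hsm' (⋃ l, G l)ᶜ (fun y => p (v y)) j).1)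
      (v := fun j => (sq f hsm' (⋃ l, G l)ᶜ (fun y => p (v y)) j).2) rfl rfl (fun j => ?_)
      hseq.comp (fun j x x' h4 h5 => (hsm' j).inj _ _ h4 h5) (j + 1) y _).2 ⟨hy, rfl⟩⟩
    rw [hseq.step j]
    rfl
  -- the closed analytic sets which contain the hit points
  set Hh : Set Y := {y | p (v y) ∈ hit f f'} with hHh
  set Hd : Fin r → Prop := fun l => ZD (fun y => p (v y)) (hit f f') (G l) with hHd
  have hex : ∀ l, ∃ D : Set Y, IsClosed D ∧ (∀ y, T3.IsAnAt 4 D y) ∧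
      (¬ Hd l → G l ∩ Hh ⊆ D ∧ ¬ G l ⊆ D) ∧ D ⊆ G l := by
    intro l
    by_cases hl : Hd l
    · exact ⟨∅, isClosed_empty, fun y => H60.Z.isAnAt_of_notMem (by simp),
        fun h => (h hl).elim, empty_subset _⟩
    · have hl' := hl
      rw [hHd] at hl'
      simp only [ZD] at hl'
      push Not at hl'
      obtain ⟨C, hC, hC1, y₁, hy₁, hC2⟩ := hl'
      refine ⟨G l ∩ {y | p (v y) ∈ C}, (hres.closed l).inter ((isClosed_of_isAn hC).preimage hvc),
        fun y => isAnAt_inter (H60.Z.isAnAt_hyp (hres.hyp l) (hres.closed l) y)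
          (isAnAt_pre hres hC y), fun _ => ⟨fun y hy => ⟨hy.1, hC1 y hy.1 hy.2⟩, fun h3 =>
          hC2 (h3 hy₁).2⟩, inter_subset_left⟩
  choose D hDc hDan hDG hDsub using hex
  set K₀ : Set (Fin r) := {l | (-1 < a l ∧ a l < 0) ∧ ¬ Hd l} with hK₀
  set K : Set (Fin r) := {l | l ∈ K₀ ∧ ∀ l' ∈ K₀, l' ≠ l → ¬ G l ⊆ G l'} with hK
  set S : Finset (Fin r) := Finset.univ.filter (· ∈ K) with hS
  have hmS : ∀ l, l ∈ S ↔ l ∈ K := fun l => by simp [hS]
  set C : Set Y := ⋃ l ∈ S, D l with hC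
  have hCc : IsClosed C := isClosed_biUnion_finset fun l _ => hDc l
  have hCan : ∀ y, T3.IsAnAt 4 C y := fun y => H60.Z.isAnAt_biUnion S fun l _ => hDan l y
  have hGC : ∀ l ∈ K, ¬ G l ⊆ C := by
    intro l hl
    refine not_sub_biUnion (hres.hyp l) (hres.conn l) ?_ hDc hDan S fun l' hl' h3 => ?_
    · rw [nonempty_iff_ne_empty]
      intro h3
      refine (hDG l hl.1.2).2 ?_
      rw [h3]
      exact empty_subset _
    · by_cases hll : l' = l
      · subst hll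
        exact (hDG l' hl.1.2).2 h3
      · exact hl.2 l' ((hmS l').1 hl').1 hll (h3.trans (hDsub l'))
  have hCd : ∀ l ∈ K, G l ⊆ closure (G l \ C) := fun l hl =>
    sub_closure_an (hres.hyp l) (hres.conn l) hCc hCan (hGC l hl)
  refine H371.G.fin_core stContr h.lb h.bd h.res h.ne h.c1 h.cmp h.corr h.flip hreg
    (H335.MM.stP7M Y χ k s M m ρ H ι sg W X Z r v p P G f f' _ L' c' σ n t h
      {l | a l < 0 ∧ l ∉ K} K
      {i | 1 ≤ ρ (Fin.natAdd k i)} (fun l hl hlK => ?_) (fun l hl => ?_) (fun i hi => not_le.1 hi)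
      C hCc hCd (fun l hl => ?_) J₀ (fun j _ => hreg j) fun j hj => ?_)
  · rw [← ha']
    by_contra h3
    exact hl ⟨not_le.1 h3, hlK⟩
  · rw [← ha']; exact hl.1.1.1
  · exact H335.MM.stSurf (hres.hyp l) (hres.closed l) hCc hCan (hCd l hl)
  · refine (h2 j hj).mono fun x hx => badPt_mono ?_ (hdense j) hx
    intro φ γ w hφ hγ hS' hB hfr
    have h3 : γ w ∈ Hh := by
      by_contra hy
      obtain ⟨x', hx', hcv⟩ := cont_offH' (D := ⋃ l, G l) hsm hsm' hvc hy j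
      have h4 := eq_of_cv hφ hγ hfr hcv
      rw [h4] at hS'
      exact hx' hS'
    refine ⟨?_, h3⟩
    rcases hB with (hB | hB) | hB
    · rcases hB with hB | hB
      · obtain ⟨l, hl, h5⟩ := mem_iUnion₂.1 hB
        by_cases h6 : a l ≤ -1 ∨ Hd l
        · exact Or.inl (Or.inl (mem_iUnion₂.2 ⟨l, ⟨hl.1, h6⟩, h5⟩))
        · rw [not_or] at h6
          have h7 : l ∈ K₀ := ⟨⟨not_le.1 h6.1, hl.1⟩, h6.2⟩
          have h8 : ∃ l' ∈ K₀, l' ≠ l ∧ G l ⊆ G l' := by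
            by_contra h9
            push Not at h9
            exact hl.2 ⟨h7, h9⟩
          obtain ⟨l', h9, h10, h11⟩ := h8
          exact Or.inr ⟨l, h7.1, h5, Or.inl ⟨l', h9.1, h10, h11 h5⟩⟩
      · exact Or.inl (Or.inr hB)
    · obtain ⟨l, hl, hy, ⟨l', hl', hne', hy'⟩ | ⟨i, hi⟩⟩ := hB
      · exact Or.inr ⟨l, hl.1.1, hy, Or.inl ⟨l', hl'.1.1, hne', hy'⟩⟩
      · exact Or.inr ⟨l, hl.1.1, hy, Or.inr ⟨i, hi⟩⟩
    · obtain ⟨l, hl, h5⟩ := mem_iUnion₂.1 hB
      exact (h5.2 (mem_iUnion₂.2 ⟨l, (hmS l).2 hl, (hDG l hl.1.2).1 ⟨h5.1, h3⟩⟩)).elim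

/-- (T7H) -/
theorem stT7H : T3.StT7H := by
  intro Y _ _ _ _ _ χ hχ k s M hM hnef m hm hm0 ρ hρ hsum H _ _ _ _ _ _ ι sg hbd hdisj W X Z r
    v p P G hres hne f f' A L c hc n hn hflip a ha
  refine ⟨fun h => ?_, fun h => ?_, fun E₀ hE₀ => ?_⟩
  · exact stT7H_fst hχ hM hnef hm hm0 hρ hsum hbd hdisj hres hne hc hn hflip ha h.1 h.2
  · obtain ⟨hb, hklt, hd1, hd2, hcen⟩ := h
    have hcross : ∀ K : Set (Fin r), (∀ l ∈ K, a l < 0) → cross ι G K = ∅ := by
      intro K hK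
      refine eq_empty_of_forall_notMem ?_
      rintro y ⟨l, hl, hy, ⟨l', hl', hne', hy'⟩ | ⟨i, hi⟩⟩
      · exact disjoint_left.1 (hd1 l' l hne' (hK l' hl') (hK l hl)) hy' hy
      · exact disjoint_left.1 (hd2 l i (hK l hl)) hy hi
    have hneX : ∀ j, Nonempty (X j).pt := by
      intro j
      have h3 := (hflip j).ninj
      rw [Function.Injective] at h3
      push Not at h3
      obtain ⟨x, -⟩ := h3
      exact ⟨x⟩
    refine stT7H_fst hχ hM hnef hm hm0 hρ hsum hbd hdisj hres hne hc hn hflip ha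
      ⟨0, fun j _ => ?_⟩ fun j => ?_
    · have := hneX (j + 1)
      refine dimLe_empty.mono ?_
      rintro x ⟨ξ, r', W', w₀, γ, ch, -, -, -, -, -, -, hw₀, h0, -, hγ⟩
      exfalso
      obtain ⟨hy, -⟩ := ((hγ w₀ hw₀).2.2.2.2.2 h0).1
      rw [hcross _ fun l hl => hl.2, union_empty] at hy
      rcases hy with hy | hy
      · obtain ⟨l, hl, -⟩ := mem_iUnion₂.1 hy
        rcases hl.2 with h3 | h3
        · exact absurd (hklt l) (not_lt.2 h3)
        · exact hcen l hl.1 h3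
      · obtain ⟨i, hi, -⟩ := mem_iUnion₂.1 hy
        exact absurd (hb i) (not_lt.2 hi)
    · have := hneX (j + 1)
      refine dimLe_empty.mono ?_
      rintro x ⟨-, -, hx | hx⟩
      · exfalso
        obtain ⟨y, hy, -⟩ := hx
        have h3 : (bad ι G {l | a l < -1} {i | 1 < ρ (Fin.natAdd k i)} ∪
            cross ι G {l | -1 ≤ a l ∧ a l < 0}) = ∅ := by
          rw [hcross _ fun l hl => hl.2, union_empty]
          refine eq_empty_of_forall_notMem fun y hy => ?_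
          rcases hy with hy | hy
          · obtain ⟨l, hl, -⟩ := mem_iUnion₂.1 hy
            exact lt_asymm (hklt l) hl
          · obtain ⟨i, hi, -⟩ := mem_iUnion₂.1 hy
            exact lt_asymm (hb i) hi
        rw [h3, empty_inter, closure_empty] at hy
        exact hy
      · exfalso
        have h3 : (⋃ l ∈ {l | (-1 ≤ a l ∧ a l < 0) ∧
            ZD (fun y => p (v y)) (hit f f') (G l)}, G l) = ∅ := by
          refine eq_empty_of_forall_notMem fun y hy => ?_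
          obtain ⟨l, hl, -⟩ := mem_iUnion₂.1 hy
          exact hcen l hl.1.2 hl.2
        rw [h3] at hx
        simp [Val] at hx
  · obtain ⟨E, rfl, hE'⟩ := flipsIn_of_eff hc hflip hE₀
    exact FlipsIn.hit_sub hE'

end Vale.Agent.P277.H29.E
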