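import Vale.Agent.P277.Stmts32
import Vale.Agent.P277.H884.T.T6HF

/-!
# P277, (T8): the hit points, for the tails of the sequence
-/

set_option maxSynthPendingDepth 3
set_option linter.unusedSectionVars false

open scoped Manifold ContDiff Topology
open Vale.Agent.P272.K Vale.Agent.P285.H281.FD Vale.Agent.P267.H175 Set Filter Metric

noncomputable section

namespace Vale.Agent.P277.H29.E

open Vale.Agent.P277 Vale.Agent.P277.T3 H615 H371.C H884.T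

theorem hitT_anti {Y : Type} [TopologicalSpace Y] {X Z : ℕ → CSp} {D : Set Y} {v : Y → (X 0).pt}
    {f : ∀ j, (X j).pt → (Z j).pt} {f' : ∀ j, (X (j + 1)).pt → (Z j).pt} {J J' : ℕ}
    (h : J ≤ J') : hitT D v f f' J' ⊆ hitT D v f f' J := by
  intro y hy h1
  exact hy fun j hj => h1 j (h.trans hj)

section

variable {Y : Type} [TopologicalSpace Y] [T2Space Y] [CompactSpace Y]
    [ChartedSpace (Cm 4) Y] [IsManifold 𝓘(ℂ, Cm 4) ω Y]
    {χ : Chart 4 Y → Cm 4 → Matrix (Fin 4) (Fin 4) ℂ} {k s : ℕ}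
    {M : Fin (k + s) → Bd Y} {m : Fin (k + s) → ℕ} {ρ : Fin (k + s) → ℝ} {H : Fin s → Type}
    [∀ i, TopologicalSpace (H i)] [∀ i, T2Space (H i)] [∀ i, CompactSpace (H i)]
    [∀ i, ConnectedSpace (H i)] [∀ i, ChartedSpace (Cm 3) (H i)]
    [∀ i, IsManifold 𝓘(ℂ, Cm 3) ω (H i)] {ι : ∀ i, H i → Y}
    {sg : ∀ i : Fin s, (M (Fin.natAdd k i)).ι → Y → ℂ} {W : CSp} {X Z : ℕ → CSp} {r : ℕ}
    {v : Y → W.pt} {p : W.pt → (X 0).pt} {P : Bd W.pt} {G : Fin r → Set Y}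
    {f : ∀ j, (X j).pt → (Z j).pt} {f' : ∀ j, (X (j + 1)).pt → (Z j).pt}
    {A : ∀ j, Set (Z j).pt} {L : ∀ j, Fin (k + s) → Bd (X j).pt} {c : ℕ → Fin (k + s) → ℕ}
    {σ : ∀ j, ∀ i : Fin s, (L j (Fin.natAdd k i)).ι → (X j).pt → ℂ}
    {n : Fin (k + s) → Fin r → ℤ} {t : ∀ e, (L 0 e).ι →
      ((((Bd.can 4 Y).pow (m e)).mul (M e)).pow (c 0 e)).ι → Y → ℂ}

/-- the wedges over the flipped loci are centred in the points hit after the step `j` -/
theorem hin_hitT (h : IsPG χ M m ρ ι sg v p P G f f' A L c σ n t) (j : ℕ)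
    (φ : Cm 4 → (X (j + 1)).pt) (γ : Cm 4 → Y) (w : Cm 4)
    (hφ : ContinuousAt φ w) (hγ : ContinuousAt γ w) (hA : f' j (φ w) ∈ Amin (f j))
    (hfr : ∃ᶠ w' in 𝓝 w, Cor (⋃ l, G l) (fun y => p (v y)) f f' (j + 1) (γ w') (φ w')) :
    γ w ∈ hitT (⋃ l, G l) (fun y => p (v y)) f f' j := by
  have h' := h.amin
  have hsm : ∀ j, IsSmall (X j) (Z j) (f j) (Amin (f j)) := fun j => (h'.flip j).flip.small
  have hsm' : ∀ j, IsSmall (X (j + 1)) (Z j) (f' j) (Amin (f j)) := fun j =>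
    (h'.flip j).flip.small'
  intro hy
  obtain ⟨x, hx, hcv⟩ := hy j le_rfl
  obtain ⟨x', -, hx', hcv'⟩ := stepH hsm hsm' hx hcv
  have h4 := eq_of_cv hφ hγ hfr hcv'
  rw [h4] at hA
  exact hx' hA

end

/-- a `G l` which is hit infinitely often is hit -/
theorem zt_zd {Y : Type} [TopologicalSpace Y] [T2Space Y] [CompactSpace Y] [ChartedSpace (Cm 4) Y]
    [IsManifold 𝓘(ℂ, Cm 4) ω Y] {W : CSp} {X Z : ℕ → CSp} {r : ℕ} {v : Y → W.pt}
    {p : W.pt → (X 0).pt} {P : Bd W.pt} {G : Fin r → Set Y} (hres : T2.IsRes v p P G) {D : Set Y}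
    {f : ∀ j, (X j).pt → (Z j).pt} {f' : ∀ j, (X (j + 1)).pt → (Z j).pt}
    (hsm : ∀ j, IsSmall (X j) (Z j) (f j) (Amin (f j)))
    (hsm' : ∀ j, IsSmall (X (j + 1)) (Z j) (f' j) (Amin (f j))) {B : Set Y}
    (h : ZT D (fun y => p (v y)) f f' B) : ZD (fun y => p (v y)) (hit f f') B := by
  intro C hC hB y hy
  have hvc : Continuous fun y => p (v y) := hres.cont.comp (continuousOn_univ.1 hres.emb.cont)
  refine h 0 {y | p (v y) ∈ C} ((isClosed_of_isAn hC).preimage hvc) (isAnAt_pre hres hC) ?_ hy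
  rintro y' ⟨h1, h2⟩
  refine hB y' h1 ?_
  by_contra h3
  refine h2 fun j _ => ?_
  obtain ⟨x, hx, hcv⟩ := cont_offH (D := D) hsm hsm' hvc h3 j
  exact ⟨x, fun h4 => h3 ⟨j, x, hx, h4⟩, hcv⟩

/-- (T8), the first part -/
theorem stT8_fst {Y : Type} [TopologicalSpace Y] [T2Space Y] [CompactSpace Y]
    [ChartedSpace (Cm 4) Y]
    [IsManifold 𝓘(ℂ, Cm 4) ω Y] {χ : Chart 4 Y → Cm 4 → Matrix (Fin 4) (Fin 4) ℂ}
    (hχ : IsKahler χ) {k s : ℕ} {M : Fin (k + s) → Bd Y} (hM : ∀ e, IsLB 4 (M e))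
    (hnef : ∀ e : Fin k, Nef χ (M (Fin.castAdd s e))) {m : Fin (k + s) → ℕ}
    (hm : ∀ e : Fin k, 1 ≤ m (Fin.castAdd s e)) (hm0 : ∀ i : Fin s, m (Fin.natAdd k i) = 0)
    {ρ : Fin (k + s) → ℝ} (hρ : ∀ e, 0 < ρ e) (hsum : ∑ e, ρ e * m e = 1) {H : Fin s → Type}
    [∀ i, TopologicalSpace (H i)] [∀ i, T2Space (H i)] [∀ i, CompactSpace (H i)]
    [∀ i, ConnectedSpace (H i)] [∀ i, ChartedSpace (Cm 3) (H i)]
    [∀ i, IsManifold 𝓘(ℂ, Cm 3) ω (H i)] {ι : ∀ i, H i → Y}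
    {sg : ∀ i : Fin s, (M (Fin.natAdd k i)).ι → Y → ℂ}
    (hbd : ∀ i, IsBd (ι i) (M (Fin.natAdd k i)) (sg i))
    (hdisj : Pairwise fun i j => Disjoint (range (ι i)) (range (ι j)))
    {W : CSp} {X Z : ℕ → CSp} {r : ℕ} {v : Y → W.pt} {p : W.pt → (X 0).pt} {P : Bd W.pt}
    {G : Fin r → Set Y} (hres : T2.IsRes v p P G) (hne : ∀ i, ¬ range (ι i) ⊆ ⋃ l, G l)
    {f : ∀ j, (X j).pt → (Z j).pt} {f' : ∀ j, (X (j + 1)).pt → (Z j).pt}
    {A : ∀ j, Set (Z j).pt} {L : ∀ j, Fin (k + s) → Bd (X j).pt} {c : ℕ → Fin (k + s) → ℕ}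
    (hc : ∀ j e, 1 ≤ c j e) {n : Fin (k + s) → Fin r → ℤ}
    (hn : ∃ t, T2.IsCmpV (fun y => p (v y)) (L 0)
      (fun e => (((Bd.can 4 Y).pow (m e)).mul (M e)).pow (c 0 e)) G n t)
    (hflip : ∀ j, IsFlipR (X j) (Z j) (X (j + 1)) (f j) (f' j) (A j) (L j) (L (j + 1)) (c j)
      (c (j + 1)) ρ) (hr : ∀ N, ∃ j ≥ N, HasRes (X j))
    {a : Fin r → ℝ} (ha : ∀ l, a l = ∑ e, ρ e * n e l / c 0 e)
    (hcon : ∃ J, ∀ j ≥ J,
      DimLe (X (j + 1)) 1 {x | BadPt {x | f' j x ∈ Amin (f j)}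
        (Cor (⋃ l, G l) (fun y => p (v y)) f f' (j + 1))
        ((bad ι G {l | a l < 0 ∧ (a l ≤ -1 ∨
            ZT (⋃ l, G l) (fun y => p (v y)) f f' (G l))} {i | 1 ≤ ρ (Fin.natAdd k i)} ∪
          cross ι G {l | -1 < a l ∧ a l < 0}) ∩
            hitT (⋃ l, G l) (fun y => p (v y)) f f' j) x} ∧
      DimLe (X (j + 1)) 1 {x | f' j x ∈ Amin (f j) ∧ ¬ IsReg 4 (X (j + 1)) x ∧
        x ∈ Tot (Cor (⋃ l, G l) (fun y => p (v y)) f f' (j + 1))
          (closure ((bad ι G {l | a l < -1} {i | 1 < ρ (Fin.natAdd k i)} ∪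
            cross ι G {l | -1 ≤ a l ∧ a l < 0}) ∩ {y | p (v y) ∈ hit f f'}))}) : False := by
  classical
  have hp1 := stT6H_fst hχ hM hnef hm hm0 hρ hsum hbd hdisj hres hne hc hn hflip ha
  obtain ⟨L', c', σ, t, hc', hcmp, hcorr, hcc, hfl⟩ :=
    H371.G.wrap_core (ι := ι) hM hm0 hbd hres hc hn hflip
  have h' : IsPG χ M m ρ ι sg v p P G f f' A L' c' σ n t :=
    ⟨hχ, hM, hnef, hm, hm0, hρ, hsum, hbd, hdisj, hres, hne, hc', hcmp, hcorr, hfl⟩
  have ha' : ∀ l, a l = ∑ e, ρ e * n e l / c' 0 e := by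
    intro l
    simp only [hcc]
    exact ha l
  have hvc : Continuous fun y => p (v y) := hres.cont.comp (continuousOn_univ.1 hres.emb.cont)
  obtain ⟨J₁, hcon⟩ := hcon
  obtain ⟨J₃, hp1⟩ := hp1
  have h := h'.amin
  have hneY : Nonempty Y := by
    have h3 := (h.flip 0).flip.ninj
    rw [Function.Injective] at h3
    push Not at h3
    obtain ⟨x, -⟩ := h3
    obtain ⟨w, -⟩ := hres.psurj x
    obtain ⟨y, -⟩ := hres.surj w
    exact ⟨y⟩
  -- the closed analytic sets which contain the hit points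
  set Ht : ℕ → Set Y := hitT (⋃ l, G l) (fun y => p (v y)) f f' with hHt
  set Hd : Fin r → Prop := fun l => ZT (⋃ l, G l) (fun y => p (v y)) f f' (G l) with hHd
  have hex : ∀ l, ∃ (J : ℕ) (D : Set Y), IsClosed D ∧ (∀ y, T3.IsAnAt 4 D y) ∧
      (¬ Hd l → G l ∩ Ht J ⊆ D ∧ ¬ G l ⊆ D) ∧ D ⊆ G l := by
    intro l
    by_cases hl : Hd l
    · exact ⟨0, ∅, isClosed_empty, fun y => H60.Z.isAnAt_of_notMem (by simp),
        fun h => (h hl).elim, empty_subset _⟩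
    · have hl' := hl
      rw [hHd] at hl'
      simp only [ZT] at hl'
      push Not at hl'
      obtain ⟨J, C, hC, hCan, hC1, hC2⟩ := hl'
      refine ⟨J, G l ∩ C, (hres.closed l).inter hC,
        fun y => isAnAt_inter (H60.Z.isAnAt_hyp (hres.hyp l) (hres.closed l) y) (hCan y),
        fun _ => ⟨fun y hy => ⟨hy.1, hC1 hy⟩, fun h3 => hC2 (h3.trans inter_subset_right)⟩,
        inter_subset_left⟩
  choose JD D hDc hDan hDG hDsub using hex
  obtain ⟨J₂, hJ₂⟩ : ∃ J₂, ∀ l, JD l ≤ J₂ := by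
    obtain ⟨J₂, h3⟩ := (finite_range JD).bddAbove
    exact ⟨J₂, fun l => h3 ⟨l, rfl⟩⟩
  set K₀ : Set (Fin r) := {l | (-1 < a l ∧ a l < 0) ∧ ¬ Hd l} with hK₀
  set K : Set (Fin r) := {l | l ∈ K₀ ∧ ∀ l' ∈ K₀, l' ≠ l → ¬ G l ⊆ G l'} with hK
  set S : Finset (Fin r) := Finset.univ.filter (· ∈ K) with hS
  have hmS : ∀ l, l ∈ S ↔ l ∈ K := fun l => by simp [hS]
  set C : Set Y := ⋃ l ∈ S, D l with hC
  have hCc : IsClosed C := isClosed_biUnion_finset fun l _ => hDc l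
  have hCan : ∀ y, T3.IsAnAt 4 C y := fun y => H60.Z.isAnAt_biUnion S fun l _ => hDan l y
  have hGC : ∀ l ∈ K, ¬ G l ⊆ C := by
    intro l hl
    refine not_sub_biUnion (hres.hyp l) (hres.conn l) ?_ hDc hDan S fun l' hl' h3 => ?_
    · rw [nonempty_iff_ne_empty]
      intro h3
      refine (hDG l hl.1.2).2 ?_
      rw [h3]
      exact empty_subset _
    · by_cases hll : l' = l
      · subst hll
        exact (hDG l' hl.1.2).2 h3
      · exact hl.2 l' ((hmS l').1 hl').1 hll (h3.trans (hDsub l'))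
  have hCd : ∀ l ∈ K, G l ⊆ closure (G l \ C) := fun l hl =>
    sub_closure_an (hres.hyp l) (hres.conn l) hCc hCan (hGC l hl)
  refine fin_coreS H615.X.stContrS h.lb h.bd h.res h.ne h.c1 h.cmp h.corr h.flip
    (H335.MM.stP7M Y χ k s M m ρ H ι sg W X Z r v p P G f f' _ L' c' σ n t h
      {l | a l < 0 ∧ l ∉ K} K
      {i | 1 ≤ ρ (Fin.natAdd k i)} (fun l hl hlK => ?_) (fun l hl => ?_) (fun i hi => not_le.1 hi)
      C hCc hCd (fun l hl => ?_) (max J₁ (max J₂ J₃)) (fun j hj => ?_) fun j hj => ?_) hr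
  · rw [← ha']
    by_contra h3
    exact hl ⟨not_le.1 h3, hlK⟩
  · rw [← ha']; exact hl.1.1.1
  · exact H335.MM.stSurf (hres.hyp l) (hres.closed l) hCc hCan (hCd l hl)
  · refine (((hcon j (by omega)).2).union (hp1 j (by omega))).mono ?_
    rintro x ⟨g1, g2⟩
    by_cases g4 : x ∈ Tot (Cor (⋃ l, G l) (fun y => p (v y)) f f' (j + 1))
        (closure ((bad ι G {l | a l < -1} {i | 1 < ρ (Fin.natAdd k i)} ∪
          cross ι G {l | -1 ≤ a l ∧ a l < 0}) ∩ {y | p (v y) ∈ hit f f'}))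
    · exact Or.inl ⟨g1, g2, g4⟩
    · exact Or.inr ⟨g1, g2, g4⟩
  · refine (hcon j (by omega)).1.mono fun x hx => badPt_mono ?_ (cor_dense h' j).1 hx
    intro φ γ w hφ hγ hS' hB hfr
    have h3 : γ w ∈ Ht j := hin_hitT h' j φ γ w hφ hγ hS' hfr
    refine ⟨?_, h3⟩
    rcases hB with (hB | hB) | hB
    · rcases hB with hB | hB
      · obtain ⟨l, hl, h5⟩ := mem_iUnion₂.1 hB
        by_cases h6 : a l ≤ -1 ∨ Hd l
        · exact Or.inl (Or.inl (mem_iUnion₂.2 ⟨l, ⟨hl.1, h6⟩, h5⟩))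
        · rw [not_or] at h6
          have h7 : l ∈ K₀ := ⟨⟨not_le.1 h6.1, hl.1⟩, h6.2⟩
          have h8 : ∃ l' ∈ K₀, l' ≠ l ∧ G l ⊆ G l' := by
            by_contra h9
            push Not at h9
            exact hl.2 ⟨h7, h9⟩
          obtain ⟨l', h9, h10, h11⟩ := h8
          exact Or.inr ⟨l, h7.1, h5, Or.inl ⟨l', h9.1, h10, h11 h5⟩⟩
      · exact Or.inl (Or.inr hB)
    · obtain ⟨l, hl, hy, ⟨l', hl', hne', hy'⟩ | ⟨i, hi⟩⟩ := hB
      · exact Or.inr ⟨l, hl.1.1, hy, Or.inl ⟨l', hl'.1.1, hne', hy'⟩⟩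
      · exact Or.inr ⟨l, hl.1.1, hy, Or.inr ⟨i, hi⟩⟩
    · obtain ⟨l, hl, h5⟩ := mem_iUnion₂.1 hB
      exact (h5.2 (mem_iUnion₂.2 ⟨l, (hmS l).2 hl, (hDG l hl.1.2).1 ⟨h5.1,
        hitT_anti ((hJ₂ l).trans (by omega)) h3⟩⟩)).elim

/-- (T8) -/
theorem stT8 : T3.StT8 := by
  intro Y _ _ _ _ _ χ hχ k s M hM hnef m hm hm0 ρ hρ hsum H _ _ _ _ _ _ ι sg hbd hdisj W X Z r
    v p P G hres hne f f' A L c hc n hn hflip hr a ha
  refine ⟨fun h => ?_, fun hb hklt hd1 hd2 => ?_⟩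
  · exact stT8_fst hχ hM hnef hm hm0 hρ hsum hbd hdisj hres hne hc hn hflip hr ha h
  · by_contra hcen
    push Not at hcen
    have hcross : ∀ K : Set (Fin r), (∀ l ∈ K, a l < 0) → cross ι G K = ∅ := by
      intro K hK
      refine eq_empty_of_forall_notMem ?_
      rintro y ⟨l, hl, hy, ⟨l', hl', hne', hy'⟩ | ⟨i, hi⟩⟩
      · exact disjoint_left.1 (hd1 l' l hne' (hK l' hl') (hK l hl)) hy' hy
      · exact disjoint_left.1 (hd2 l i (hK l hl)) hy hi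
    have hneX : ∀ j, Nonempty (X j).pt := by
      intro j
      have h3 := (hflip j).ninj
      rw [Function.Injective] at h3
      push Not at h3
      obtain ⟨x, -⟩ := h3
      exact ⟨x⟩
    refine stT8_fst hχ hM hnef hm hm0 hρ hsum hbd hdisj hres hne hc hn hflip hr ha
      ⟨0, fun j _ => ⟨?_, ?_⟩⟩
    · have := hneX (j + 1)
      refine dimLe_empty.mono ?_
      rintro x ⟨ξ, r', W', w₀, γ, ch, -, -, -, -, -, -, hw₀, h0, -, hγ⟩
      exfalso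
      obtain ⟨hy, -⟩ := ((hγ w₀ hw₀).2.2.2.2.2 h0).1
      rw [hcross _ fun l hl => hl.2, union_empty] at hy
      rcases hy with hy | hy
      · obtain ⟨l, hl, -⟩ := mem_iUnion₂.1 hy
        rcases hl.2 with h3 | h3
        · exact absurd (hklt l) (not_lt.2 h3)
        · exact hcen l hl.1 h3
      · obtain ⟨i, hi, -⟩ := mem_iUnion₂.1 hy
        exact absurd (hb i) (not_lt.2 hi)
    · have := hneX (j + 1)
      refine dimLe_empty.mono ?_
      rintro x ⟨-, -, hx⟩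
      exfalso
      obtain ⟨y, hy, -⟩ := hx
      have h3 : (bad ι G {l | a l < -1} {i | 1 < ρ (Fin.natAdd k i)} ∪
          cross ι G {l | -1 ≤ a l ∧ a l < 0}) = ∅ := by
        rw [hcross _ fun l hl => hl.2, union_empty]
        refine eq_empty_of_forall_notMem fun y hy => ?_
        rcases hy with hy | hy
        · obtain ⟨l, hl, -⟩ := mem_iUnion₂.1 hy
          exact lt_asymm (hklt l) hl
        · obtain ⟨i, hi, -⟩ := mem_iUnion₂.1 hy
          exact lt_asymm (hb i) hi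
      rw [h3, empty_inter, closure_empty] at hy
      exact hy

end Vale.Agent.P277.H29.E
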